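import Mathlib

/-!
# Linear circuits with additions and scalar multiplications counted separately
-/

namespace Vale.Agent.P344.H664

/-- `Circ a m V`: a linear circuit with inputs `x_j` (`j : ι`) and the constant `0`, with `a`
gates `u + v` or `u - v` and `m` gates `c • u`, whose computed values (linear forms in the inputs,
given by their coefficient vectors; inputs and `0` included) form the set `V`. -/
inductive Circ {ι : Type} [DecidableEq ι] : ℕ → ℕ → Set (ι → ℂ) → Prop
  | start : Circ 0 0 {w | w = 0 ∨ ∃ j, w = Pi.single j 1}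
  | add {a m : ℕ} {V : Set (ι → ℂ)} {u v : ι → ℂ} :
      Circ a m V → u ∈ V → v ∈ V → Circ (a + 1) m (insert (u + v) V)
  | sub {a m : ℕ} {V : Set (ι → ℂ)} {u v : ι → ℂ} :
      Circ a m V → u ∈ V → v ∈ V → Circ (a + 1) m (insert (u - v) V)
  | smul {a m : ℕ} {V : Set (ι → ℂ)} {u : ι → ℂ} (c : ℂ) :
      Circ a m V → u ∈ V → Circ a (m + 1) (insert (c • u) V)

/-- The matrix `F_n = (ζ_n^{jk})`, `ζ_n = e^{2πi/n}`. -/
noncomputable def dftMat (n : ℕ) (j k : Fin n) : ℂ :=
  Complex.exp (2 * Real.pi * Complex.I / n) ^ ((j : ℕ) * (k : ℕ))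

/-- Some linear circuit with `a` additions and subtractions and `m` scalar multiplications
computes `F_n x` for every `x`: all rows of `F_n` are among its computed values. -/
def ComputesDFT (n a m : ℕ) : Prop :=
  ∃ V : Set (Fin n → ℂ), Circ a m V ∧ ∀ j, dftMat n j ∈ V

/-- `L(n)`: the least number of gates of a linear circuit for `F_n`. -/
noncomputable def L (n : ℕ) : ℕ := sInf {s | ∃ a m, ComputesDFT n a m ∧ a + m = s}

end Vale.Agent.P344.H664
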