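import Vale.Agent.P344.H664.Elim
import Vale.Agent.P344.H664.Defs

/-!
# Additions needed for the discrete Fourier transform
-/

namespace Vale.Agent.P344.H664

open Finset

/-- Forgetting scalar multiplications. -/
theorem circ_chain {ι : Type} [DecidableEq ι] [Fintype ι] {a m : ℕ} {V : Set (ι → ℂ)}
    (h : Circ a m V) :
    ∃ L : List (Gt ι), ok Finset.univ L ∧ L.length ≤ a ∧ V ⊆ avail Finset.univ L := by
  induction h with
  | start =>
    refine ⟨[], trivial, le_rfl, ?_⟩
    rintro w (rfl | ⟨j, rfl⟩)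
    · exact src_sub_avail (zero_mem_src _ _)
    · exact src_sub_avail (Or.inr (Or.inl ⟨j, Finset.mem_univ _, rfl⟩))
  | @add a m V u v _ hu hv ih =>
    obtain ⟨L, h1, h2, h3⟩ := ih
    obtain ⟨u', hu', c, hc⟩ := h3 hu
    obtain ⟨v', hv', d, hd⟩ := h3 hv
    refine ⟨⟨c, d, u', v'⟩ :: L, ⟨h1, hu', hv'⟩, by rw [List.length_cons]; omega, ?_⟩
    intro w hw
    rcases Set.mem_insert_iff.1 hw with rfl | hw
    · exact ⟨Gt.val ⟨c, d, u', v'⟩, src_cons.2 (Or.inl rfl), 1, by rw [hc, hd, Gt.val, one_smul]⟩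
    · exact avail_mono_cons (h3 hw)
  | @sub a m V u v _ hu hv ih =>
    obtain ⟨L, h1, h2, h3⟩ := ih
    obtain ⟨u', hu', c, hc⟩ := h3 hu
    obtain ⟨v', hv', d, hd⟩ := h3 hv
    refine ⟨⟨c, -d, u', v'⟩ :: L, ⟨h1, hu', hv'⟩, by rw [List.length_cons]; omega, ?_⟩
    intro w hw
    rcases Set.mem_insert_iff.1 hw with rfl | hw
    · exact ⟨Gt.val ⟨c, -d, u', v'⟩, src_cons.2 (Or.inl rfl), 1, by
        rw [hc, hd, Gt.val, one_smul, neg_smul, sub_eq_add_neg]⟩
    · exact avail_mono_cons (h3 hw)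
  | @smul a m V u c _ hu ih =>
    obtain ⟨L, h1, h2, h3⟩ := ih
    refine ⟨L, h1, h2, ?_⟩
    intro w hw
    rcases Set.mem_insert_iff.1 hw with rfl | hw
    · exact smul_mem_avail _ (h3 hu)
    · exact h3 hw

theorem pow_modEq {n : ℕ} (hn : n ≠ 0) {ζ : ℂ} (hζ : IsPrimitiveRoot ζ n) {a b : ℕ}
    (h : ζ ^ a = ζ ^ b) : a ≡ b [MOD n] := by
  have h1 : ζ ^ (a % n) = ζ ^ (b % n) := by
    rw [← Nat.div_add_mod a n, ← Nat.div_add_mod b n, pow_add, pow_add, pow_mul, pow_mul,
      hζ.pow_eq_one, one_pow, one_pow, one_mul, one_mul] at h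
    exact h
  exact hζ.pow_inj (Nat.mod_lt _ (Nat.pos_of_ne_zero hn)) (Nat.mod_lt _ (Nat.pos_of_ne_zero hn)) h1

theorem zeta_prim {n : ℕ} (hn : n ≠ 0) :
    IsPrimitiveRoot (Complex.exp (2 * Real.pi * Complex.I / n)) n :=
  Complex.isPrimitiveRoot_exp n hn

theorem dftMat_ne {n : ℕ} (j k : Fin n) : dftMat n j k ≠ 0 := by
  unfold dftMat
  exact pow_ne_zero _ (Complex.exp_ne_zero _)

/-- More than `n / minFac n` rows of `F_n` have pairwise non-proportional columns. -/
theorem pair_cond {n : ℕ} (K : Finset (Fin n)) (hK : n / n.minFac < K.card)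
    (x z : Fin n) (hxz : x ≠ z) :
    ∃ k ∈ K, ∃ l ∈ K, dftMat n k x * dftMat n l z ≠ dftMat n k z * dftMat n l x := by
  classical
  by_contra hcon
  push Not at hcon
  have hn : 0 < n := Nat.pos_of_ne_zero (by rintro rfl; exact x.elim0)
  -- wlog z < x
  wlog hlt : (z : ℕ) < x generalizing x z with H
  · refine H z x hxz.symm (fun k hk l hl => (hcon k hk l hl).symm) ?_
    have : (x : ℕ) ≠ z := fun h => hxz (Fin.ext h)
    omega
  obtain ⟨d, hd⟩ : ∃ d, (x : ℕ) = z + d := ⟨x - z, by omega⟩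
  have hd0 : 0 < d := by omega
  have hdn : d < n := by have := x.2; omega
  have hζ := zeta_prim hn.ne'
  have hmod : ∀ k ∈ K, ∀ l ∈ K, (k : ℕ) ≡ l [MOD n / n.gcd d] := by
    intro k hk l hl
    have h1 := hcon k hk l hl
    unfold dftMat at h1
    rw [← pow_add, ← pow_add] at h1
    have h3 : (k : ℕ) * x + l * z ≡ k * z + l * x [MOD n] := pow_modEq hn.ne' hζ h1
    rw [hd] at h3
    have h4 : (k : ℕ) * z + l * z + k * d ≡ k * z + l * z + l * d [MOD n] := by
      convert h3 using 1 <;> ring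
    exact Nat.ModEq.cancel_right_div_gcd hn (Nat.ModEq.add_left_cancel' _ h4)
  set g := n.gcd d with hg
  have hgn : g ∣ n := Nat.gcd_dvd_left _ _
  have hg0 : 0 < g := Nat.gcd_pos_of_pos_left _ hn
  have hgd : g ≤ d := Nat.gcd_le_right _ hd0
  have hle : K.card ≤ g := by
    have : K.card ≤ (Finset.range g).card := by
      refine Finset.card_le_card_of_injOn (fun k => (k : ℕ) / (n / g)) ?_ ?_
      · intro k _
        rw [Finset.coe_range, Set.mem_Iio]
        apply Nat.div_lt_of_lt_mul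
        rw [Nat.div_mul_cancel hgn]
        exact k.2
      · intro k hk l hl hkl
        have h1 := hmod k hk l hl
        have h2 : (k : ℕ) / (n / g) = l / (n / g) := hkl
        apply Fin.ext
        rw [← Nat.div_add_mod (k : ℕ) (n / g), ← Nat.div_add_mod (l : ℕ) (n / g), h2, h1]
    simpa using this
  have hq : n.minFac ≤ n / g := by
    apply Nat.minFac_le_of_dvd
    · have h1 : n / g * g = n := Nat.div_mul_cancel hgn
      by_contra h2
      have h3 : n / g ≤ 1 := by omega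
      have h4 : n / g * g ≤ 1 * g := Nat.mul_le_mul_right _ h3
      omega
    · exact Nat.div_dvd_of_dvd hgn
  have h5 : g ≤ n / n.minFac := by
    rw [Nat.le_div_iff_mul_le (Nat.minFac_pos n)]
    calc g * n.minFac ≤ g * (n / g) := Nat.mul_le_mul_left _ hq
      _ = n := Nat.mul_div_cancel' hgn
  omega

/-- **Additions**: at least `3 n - 3 - n / minFac n` additions and subtractions. -/
theorem adds_bound {n a m : ℕ} (hn : 2 ≤ n) (h : ComputesDFT n a m) :
    3 * n ≤ a + n / n.minFac + 3 := by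
  classical
  obtain ⟨V, hV, hrow⟩ := h
  obtain ⟨L, hL, hlen, hsub⟩ := circ_chain hV
  have hζ := zeta_prim (show n ≠ 0 by omega)
  have hmf : 2 ≤ n.minFac := (Nat.minFac_prime (by omega)).two_le
  have hdiv : n / n.minFac ≤ n / 2 := Nat.div_le_div_left hmf (by norm_num)
  let i0 : Fin n := ⟨0, by omega⟩
  let i1 : Fin n := ⟨1, by omega⟩
  have h01 : i0 ≠ i1 := by
    intro h; have := congrArg Fin.val h; simp [i0, i1] at this
  have hne : ∀ k, dftMat n k ∉ avail Finset.univ ([] : List (Gt (Fin n))) := by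
    rintro k ⟨u, hu, c, hc⟩
    rcases hu with rfl | ⟨j, hj, rfl⟩ | ⟨g, hg, rfl⟩
    · exact dftMat_ne k i0 (by rw [hc]; simp)
    · by_cases hj0 : j = i0
      · exact dftMat_ne k i1 (by rw [hc]; simp [e_apply_ne (show j ≠ i1 by rw [hj0]; exact h01)])
      · exact dftMat_ne k i0 (by rw [hc]; simp [e_apply_ne hj0])
    · simp at hg
  have hprop : ∀ k l : Fin n, k ≠ l → ∀ c : ℂ, dftMat n k ≠ c • dftMat n l := by
    intro k l hkl c hc
    have h0 := congrFun hc i0
    have h1 := congrFun hc i1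
    simp only [dftMat, i0, i1, Pi.smul_apply, smul_eq_mul, mul_zero, pow_zero, mul_one] at h0 h1
    rw [← h0, one_mul] at h1
    exact hkl (Fin.ext (hζ.pow_inj k.2 l.2 h1))
  obtain ⟨L', K, h1, h2, h3, h4⟩ := one_per_output Finset.univ (dftMat n) hne hprop L hL
    Finset.univ (n / n.minFac + 1) (by rw [Finset.card_univ, Fintype.card_fin]; omega)
    (fun k _ => hsub (hrow k))
  have key := two_per_input (κ := {k // k ∈ K}) (n - 1) (Finset.univ : Finset (Fin n))
    (by rw [Finset.card_univ, Fintype.card_fin]; omega) (fun k => dftMat n k.1)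
    (fun k j _ => dftMat_ne _ _) (by
      intro x _ z _ hxz
      obtain ⟨k, hk, l, hl, hkl⟩ := pair_cond K (by omega) x z hxz
      exact ⟨⟨k, hk⟩, ⟨l, hl⟩, hkl⟩) L' h1 (fun k => h3 k.1 k.2)
  rw [Finset.card_univ, Fintype.card_fin] at h4
  omega

end Vale.Agent.P344.H664
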