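import Vale.Agent.P344.H664.Cor

/-!
# Uniform bounds for large `n`
-/

namespace Vale.Agent.P344.H664

open Module

theorem card_divisors_le (K L : ℕ) (hK : 0 < K) (hL : 0 < L) :
    L.divisors.card ≤ K + L / K := by
  classical
  have h1 := Finset.card_filter_add_card_filter_not (s := L.divisors) (fun d => d ≤ K)
  have h2 : (L.divisors.filter fun d => d ≤ K).card ≤ K := by
    have : (L.divisors.filter fun d => d ≤ K) ⊆ Finset.Icc 1 K := by
      intro d hd
      rw [Finset.mem_filter] at hd
      rw [Finset.mem_Icc]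
      exact ⟨Nat.pos_of_mem_divisors hd.1, hd.2⟩
    simpa using Finset.card_le_card this
  have h3 : (L.divisors.filter fun d => ¬ d ≤ K).card ≤ L / K := by
    have : (L.divisors.filter fun d => ¬ d ≤ K).card ≤ (Finset.Icc 1 (L / K)).card := by
      refine Finset.card_le_card_of_injOn (fun d => L / d) ?_ ?_
      · intro d hd
        rw [Finset.coe_filter] at hd
        obtain ⟨hd1, hd2⟩ := hd
        have hdL := Nat.dvd_of_mem_divisors hd1
        have hd0 := Nat.pos_of_mem_divisors hd1
        rw [Finset.coe_Icc, Set.mem_Icc]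
        exact ⟨Nat.div_pos (Nat.le_of_dvd hL hdL) hd0,
          Nat.div_le_div_left (by omega) hK⟩
      · intro d hd e he hde
        rw [Finset.coe_filter] at hd he
        have hdL := Nat.dvd_of_mem_divisors hd.1
        have heL := Nat.dvd_of_mem_divisors he.1
        have h4 : L / d = L / e := hde
        have h5 := Nat.div_mul_cancel hdL
        have h6 := Nat.div_mul_cancel heL
        rw [h4] at h5
        have h7 : 0 < L / e := Nat.div_pos (Nat.le_of_dvd hL heL) (Nat.pos_of_mem_divisors he.1)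
        exact Nat.eq_of_mul_eq_mul_left h7 (h5.trans h6.symm)
    simpa using this
  omega

/-- A small number coprime to `n`. -/
theorem exists_small_coprime (C : ℕ) (hC : 0 < C) {n : ℕ} (hn : 2 ^ ((4 * C + 1) * C) ≤ n) :
    ∃ t, 2 ≤ t ∧ t.Coprime n ∧ t ^ C ≤ n := by
  classical
  have hn0 : n ≠ 0 := by
    have : 0 < 2 ^ ((4 * C + 1) * C) := by positivity
    omega
  set Q := Nat.log 2 n / C with hQ
  have hlog : (4 * C + 1) * C ≤ Nat.log 2 n := Nat.le_log_of_pow_le (by norm_num) hn
  have hQ1 : 4 * C + 1 ≤ Q := (Nat.le_div_iff_mul_le hC).2 hlog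
  have hlow : 2 ^ (Q * C) ≤ n := Nat.pow_le_of_le_log hn0 (Nat.div_mul_le_self _ _)
  have hhigh : n < 2 ^ ((Q + 1) * C) := by
    apply Nat.lt_pow_of_log_lt (by norm_num)
    exact Nat.lt_mul_of_div_lt (Nat.lt_succ_self _) hC
  obtain ⟨M, hM⟩ : ∃ M, Q = M + 2 * C := ⟨Q - 2 * C, by omega⟩
  have hb : ∀ i : ℕ, ∃ p, p.Prime ∧ 2 ^ (M + i) < p ∧ p ≤ 2 * 2 ^ (M + i) :=
    fun i => Nat.exists_prime_lt_and_le_two_mul _ (by positivity)
  choose p hp hp1 hp2 using hb
  by_contra hcon
  push Not at hcon
  have hdvd : ∀ i ∈ Finset.range (2 * C), p i ∣ n := by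
    intro i hi
    rw [Finset.mem_range] at hi
    by_contra hnd
    have h1 := hcon (p i) (hp i).two_le ((Nat.Prime.coprime_iff_not_dvd (hp i)).2 hnd)
    have h2 : p i ≤ 2 ^ Q := by
      refine (hp2 i).trans ?_
      rw [← pow_succ']
      exact Nat.pow_le_pow_right (by norm_num) (by omega)
    have h3 : p i ^ C ≤ (2 ^ Q) ^ C := Nat.pow_le_pow_left h2 C
    rw [← pow_mul] at h3
    omega
  have hinj : ∀ i j, i < j → p i < p j := by
    intro i j hij
    refine lt_of_le_of_lt (hp2 i) (lt_of_le_of_lt ?_ (hp1 j))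
    rw [← pow_succ']
    exact Nat.pow_le_pow_right (by norm_num) (by omega)
  have hprod : ∏ i ∈ Finset.range (2 * C), p i ∣ n := by
    refine Finset.prod_dvd_of_isRelPrime ?_ hdvd
    intro i _ j _ hij
    refine Nat.coprime_iff_isRelPrime.1 ((Nat.coprime_primes (hp i) (hp j)).2 ?_)
    rcases lt_or_gt_of_ne hij with h | h
    · exact (hinj i j h).ne
    · exact (hinj j i h).ne'
  have hle : ∏ i ∈ Finset.range (2 * C), p i ≤ n := Nat.le_of_dvd (Nat.pos_of_ne_zero hn0) hprod
  have hge : (2 ^ M) ^ (2 * C) ≤ ∏ i ∈ Finset.range (2 * C), p i := by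
    have : ∏ i ∈ Finset.range (2 * C), 2 ^ M ≤ ∏ i ∈ Finset.range (2 * C), p i := by
      refine Finset.prod_le_prod' fun i _ => ?_
      exact (Nat.pow_le_pow_right (by norm_num) (Nat.le_add_right M i)).trans (hp1 i).le
    rwa [Finset.prod_const, Finset.card_range] at this
  rw [← pow_mul] at hge
  have h5 : (Q + 1) * C ≤ M * (2 * C) := by
    have : Q + 1 ≤ 2 * M := by omega
    calc (Q + 1) * C ≤ 2 * M * C := Nat.mul_le_mul_right _ this
      _ = M * (2 * C) := by ring
  have h6 : 2 ^ ((Q + 1) * C) ≤ 2 ^ (M * (2 * C)) := Nat.pow_le_pow_right (by norm_num) h5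
  omega

section
variable {X : Type} [Fintype X] [DecidableEq X]

omit [DecidableEq X] in
theorem len_pos (π : Equiv.Perm X) (O : Orb π) : 0 < len π O := by
  apply Function.minimalPeriod_pos_of_mem_periodicPts
  exact (π.injective.mem_periodicPts _)

omit [DecidableEq X] in
theorem sum_len_le (π : Equiv.Perm X) : ∑ O : Orb π, len π O ≤ Fintype.card X := by
  classical
  let f : (Σ O : Orb π, Fin (len π O)) → X := fun q => (π ^ (q.2 : ℕ)) q.1.out
  have hf : Function.Injective f := by
    rintro ⟨O, i⟩ ⟨O', i'⟩ h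
    have h1 : (π ^ (i : ℕ)) O.out = (π ^ (i' : ℕ)) O'.out := h
    have h2 : O = O' := by
      have h3 : π.SameCycle O.out O'.out := by
        have h4 : π.SameCycle O.out ((π ^ (i : ℕ)) O.out) := ⟨i, by rw [zpow_natCast]⟩
        have h5 : π.SameCycle O'.out ((π ^ (i' : ℕ)) O'.out) := ⟨i', by rw [zpow_natCast]⟩
        rw [h1] at h4
        exact h4.trans h5.symm
      have h6 : (Quotient.mk _ O.out : Orb π) = Quotient.mk _ O'.out := Quotient.sound h3
      rwa [Quotient.out_eq, Quotient.out_eq] at h6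
    subst h2
    have h3 : (i : ℕ) = i' := by
      have h4 : (π : X → X)^[(i : ℕ)] O.out = (π : X → X)^[(i' : ℕ)] O.out := by
        rw [Equiv.Perm.iterate_eq_pow, Equiv.Perm.iterate_eq_pow]; exact h1
      exact Function.iterate_injOn_Iio_minimalPeriod (f := π) (x := O.out) i.2 i'.2 h4
    rw [Fin.ext h3]
  have h := Fintype.card_le_of_injective f hf
  rwa [Fintype.card_sigma, Finset.sum_congr rfl fun O _ => Fintype.card_fin _] at h

end

variable {n : ℕ}

theorem card_short (t l : ℕ) (ht : 2 ≤ t) (hl : 0 < l) :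
    (Finset.univ.filter fun j : Fin n => t ^ l * (j : ℕ) % n = j).card ≤ t ^ l - 1 := by
  classical
  have htl : 2 ≤ t ^ l := ht.trans (Nat.le_self_pow hl.ne' t)
  have : (Finset.univ.filter fun j : Fin n => t ^ l * (j : ℕ) % n = j).card ≤
      (Finset.range (t ^ l - 1)).card := by
    have key : ∀ j : Fin n, t ^ l * (j : ℕ) % n = j → (t ^ l - 1) * j = n * (t ^ l * j / n) := by
      intro j hj
      have h1 := Nat.div_add_mod (t ^ l * (j : ℕ)) n
      rw [hj] at h1
      rw [Nat.sub_mul, one_mul]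
      omega
    refine Finset.card_le_card_of_injOn (fun j => t ^ l * (j : ℕ) / n) ?_ ?_
    · intro j hj
      rw [Finset.coe_filter] at hj
      rw [Finset.coe_range, Set.mem_Iio]
      have h1 := key j hj.2
      have hn : 0 < n := Nat.pos_of_ne_zero (by rintro rfl; exact j.elim0)
      have h2 : (t ^ l - 1) * (j : ℕ) < (t ^ l - 1) * n :=
        Nat.mul_lt_mul_of_pos_left j.2 (by omega)
      rw [h1, mul_comm] at h2
      exact Nat.lt_of_mul_lt_mul_right h2
    · intro i hi j hj hij
      rw [Finset.coe_filter] at hi hj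
      have h1 := key i hi.2
      have h2 := key j hj.2
      have h3 : t ^ l * (i : ℕ) / n = t ^ l * (j : ℕ) / n := hij
      rw [h3, ← h2] at h1
      exact Fin.ext (Nat.eq_of_mul_eq_mul_left (by omega) h1)
  simpa using this

theorem sum_pow_le (t : ℕ) (ht : 2 ≤ t) : ∀ B : ℕ,
    ∑ l ∈ Finset.range B, (t ^ (l + 1) - 1) ≤ t ^ (B + 1) - 1
  | 0 => by simp
  | B + 1 => by
    rw [Finset.sum_range_succ]
    have h1 := sum_pow_le t ht B
    have h2 : 2 * t ^ (B + 1) ≤ t ^ (B + 1 + 1) := by
      rw [pow_succ' t (B + 1)]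
      exact Nat.mul_le_mul_right _ ht
    have h3 : 0 < t ^ (B + 1) := by positivity
    omega

theorem card_orb_le (t B : ℕ) (ht : 2 ≤ t) (hB : 0 < B) {π : Equiv.Perm (Fin n)}
    (hπ : IsMul t π) : Fintype.card (Orb π) ≤ t ^ (B + 1) + n / B := by
  classical
  have h1 := Finset.card_filter_add_card_filter_not (s := (Finset.univ : Finset (Orb π)))
    (fun O => len π O ≤ B)
  have h2 : (Finset.univ.filter fun O : Orb π => len π O ≤ B).card ≤ t ^ (B + 1) := by
    have h3 : (Finset.univ.filter fun O : Orb π => len π O ≤ B).card ≤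
        ((Finset.range B).biUnion fun l =>
          Finset.univ.filter fun j : Fin n => t ^ (l + 1) * (j : ℕ) % n = j).card := by
      refine Finset.card_le_card_of_injOn (fun O => O.out) ?_ ?_
      · intro O hO
        rw [Finset.coe_filter] at hO
        have hpos := len_pos π O
        rw [Finset.mem_coe, Finset.mem_biUnion]
        refine ⟨len π O - 1, Finset.mem_range.2 (by have := hO.2; omega), ?_⟩
        rw [Finset.mem_filter]
        refine ⟨Finset.mem_univ _, ?_⟩
        have h4 : len π O - 1 + 1 = len π O := by omega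
        rw [h4, ← pow_isMul_apply hπ]
        have h5 := Function.iterate_minimalPeriod (f := π) (x := O.out)
        rw [Equiv.Perm.iterate_eq_pow] at h5
        exact congrArg Fin.val h5
      · intro O _ O' _ h
        have h6 : O.out = O'.out := h
        rw [← Quotient.out_eq O, ← Quotient.out_eq O', h6]
    refine h3.trans (Finset.card_biUnion_le.trans ?_)
    refine (Finset.sum_le_sum fun l _ => card_short t (l + 1) ht (Nat.succ_pos l)).trans ?_
    exact (sum_pow_le t ht B).trans (Nat.sub_le _ _)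
  have h3 : (Finset.univ.filter fun O : Orb π => ¬ len π O ≤ B).card ≤ n / B := by
    rw [Nat.le_div_iff_mul_le hB]
    have h4 : ∑ O ∈ Finset.univ.filter (fun O : Orb π => ¬ len π O ≤ B), B ≤
        ∑ O : Orb π, len π O := by
      refine (Finset.sum_le_sum fun O hO => ?_).trans
        (Finset.sum_le_sum_of_subset (Finset.filter_subset _ _))
      exact (not_le.1 (Finset.mem_filter.1 hO).2).le
    have h5 := sum_len_le π
    rw [Fintype.card_fin] at h5
    rw [Finset.sum_const, smul_eq_mul] at h4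
    omega
  rw [Finset.card_univ] at h1
  omega

/-- **Scalar multiplications, all large `n`**. -/
theorem smul_bound_asymp (K : ℕ) (hK : 0 < K) :
    ∃ N : ℕ, ∀ n ≥ N, ∀ a m : ℕ, ComputesDFT n a m → K * (2 * n) ≤ K * m + 5 * n := by
  classical
  set B := K ^ 2 with hB
  have hB0 : 0 < B := by positivity
  set C := 2 * (B + 1) with hC
  refine ⟨2 ^ ((4 * C + 1) * C) + (2 * K ^ 2 + K) ^ 2 + 1, ?_⟩
  intro n hn a m h
  have hn0 : 0 < n := lt_of_lt_of_le (Nat.succ_pos _) hn
  have hn1 : 2 ^ ((4 * C + 1) * C) ≤ n :=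
    ((Nat.le_add_right _ _).trans (Nat.le_add_right _ _)).trans hn
  have hn2 : (2 * K ^ 2 + K) ^ 2 ≤ n :=
    ((Nat.le_add_left _ _).trans (Nat.le_add_right _ _)).trans hn
  obtain ⟨t, ht2, htc, htC⟩ := exists_small_coprime C (by omega) (n := n) hn1
  obtain ⟨π, hπ⟩ := exists_isMul hn0 htc
  have h1 := smul_bound hn0 h htc hπ
  have h2 := card_orb_le t B ht2 hB0 hπ
  -- divisor sums
  have h3 : ∑ O : Orb π, (len π O).divisors.card ≤ K * Fintype.card (Orb π) + n / K := by
    have h4 : K * ∑ O : Orb π, (len π O).divisors.card ≤ K * (K * Fintype.card (Orb π)) + n := by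
      rw [Finset.mul_sum]
      have h5 : ∀ O : Orb π, K * (len π O).divisors.card ≤ K * K + len π O := by
        intro O
        have h6 := card_divisors_le K (len π O) hK (len_pos π O)
        have h7 := Nat.mul_le_mul_left K h6
        have h8 := Nat.mul_div_le (len π O) K
        rw [mul_add] at h7
        omega
      refine (Finset.sum_le_sum fun O _ => h5 O).trans ?_
      rw [Finset.sum_add_distrib, Finset.sum_const, Finset.card_univ, smul_eq_mul]
      have h9 := sum_len_le π
      rw [Fintype.card_fin] at h9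
      have h10 : Fintype.card (Orb π) * (K * K) = K * (K * Fintype.card (Orb π)) := by ring
      omega
    have h5 : ∑ O : Orb π, (len π O).divisors.card ≤ (K * (K * Fintype.card (Orb π)) + n) / K := by
      rw [Nat.le_div_iff_mul_le hK, mul_comm]; exact h4
    rw [Nat.mul_add_div hK] at h5
    exact h5
  have h4 := card_divisors_le K n hK hn0
  -- `t ^ (B + 1)` is small
  have h5 : (t ^ (B + 1)) ^ 2 ≤ n := by
    rw [← pow_mul, mul_comm (B + 1) 2]; exact htC
  have h6 : K * (n / K) ≤ n := Nat.mul_div_le n K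
  have h7 : K ^ 2 * (n / B) ≤ n := Nat.mul_div_le n B
  -- multiply by K
  have h8 : K * (2 * n) ≤ K * m + K * (K + n / K) + K * (K * (t ^ (B + 1) + n / B) + n / K) := by
    have h9 : 2 * n ≤ m + (K + n / K) + (K * (t ^ (B + 1) + n / B) + n / K) := by
      have h10 : K * Fintype.card (Orb π) ≤ K * (t ^ (B + 1) + n / B) := Nat.mul_le_mul_left K h2
      omega
    have := Nat.mul_le_mul_left K h9
    nlinarith
  have h9 : K ^ 2 + K ^ 2 * t ^ (B + 1) ≤ 2 * n := by
    set s := t ^ (B + 1) with hs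
    have hs1 : 1 ≤ s := Nat.one_le_pow _ _ (by omega)
    have h11 : K ^ 2 + K ^ 2 * s ≤ 2 * K ^ 2 * s := by nlinarith
    have h12 : 2 * (2 * K ^ 2 * s) ≤ (2 * K ^ 2) ^ 2 + s ^ 2 := by
      nlinarith [Nat.pow_le_pow_left (Nat.le_refl 1) 2, sq_nonneg ((2 * K ^ 2 : ℤ) - s)]
    have h13 : (2 * K ^ 2) ^ 2 ≤ (2 * K ^ 2 + K) ^ 2 := Nat.pow_le_pow_left (by omega) 2
    omega
  nlinarith

end Vale.Agent.P344.H664
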