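import Vale.Agent.P344.H664.Main

/-!
# Explicit bounds
-/

namespace Vale.Agent.P344.H664

open Module

section
variable {X : Type} [Fintype X] [DecidableEq X]

omit [DecidableEq X] in
theorem minimalPeriod_sameCycle {π : Equiv.Perm X} {x y : X} (h : π.SameCycle x y) :
    Function.minimalPeriod π x = Function.minimalPeriod π y := by
  obtain ⟨l, _, hl⟩ := h.exists_pow_eq'
  rw [← hl]
  have h1 := Function.minimalPeriod_apply_iterate (f := π) (x := x)
    (π.injective.mem_periodicPts x) l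
  rw [← h1, Equiv.Perm.iterate_eq_pow]

omit [DecidableEq X] in
theorem orb_sum_le' {α : Type} (π : Equiv.Perm X) (A : Finset α) (F : α → X)
    (hA : ∀ x, ∃ a ∈ A, π.SameCycle (F a) x) :
    ∑ O : Orb π, (len π O).divisors.card ≤
      ∑ a ∈ A, (Function.minimalPeriod π (F a)).divisors.card := by
  classical
  choose f hfA hf using hA
  let g : Orb π → α := fun O => f O.out
  have hg : Function.Injective g := by
    intro O O' h
    have h1 : π.SameCycle O.out O'.out := (hf O.out).symm.trans (by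
      have : f O.out = f O'.out := h
      rw [this]; exact hf O'.out)
    have h2 : (Quotient.mk _ O.out : Orb π) = Quotient.mk _ O'.out := Quotient.sound h1
    rwa [Quotient.out_eq, Quotient.out_eq] at h2
  have h3 : ∀ O : Orb π, (len π O).divisors.card =
      (Function.minimalPeriod π (F (g O))).divisors.card := by
    intro O
    unfold len
    rw [minimalPeriod_sameCycle (hf O.out)]
  simp_rw [h3]
  rw [← Finset.sum_image (f := fun a => (Function.minimalPeriod π (F a)).divisors.card)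
    (g := g) (fun a _ b _ h => hg h)]
  refine Finset.sum_le_sum_of_subset ?_
  intro a ha
  rw [Finset.mem_image] at ha
  obtain ⟨O, _, rfl⟩ := ha
  exact hfA _

omit [DecidableEq X] in
theorem orb_sum_le (π : Equiv.Perm X) (A : Finset X) (hA : ∀ x, ∃ a ∈ A, π.SameCycle a x) :
    ∑ O : Orb π, (len π O).divisors.card ≤ ∑ a ∈ A, (Function.minimalPeriod π a).divisors.card :=
  orb_sum_le' π A id hA

omit [Fintype X] [DecidableEq X] in
theorem card_divisors_le_of_dvd {a b : ℕ} (hb : b ≠ 0) (h : a ∣ b) :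
    a.divisors.card ≤ b.divisors.card :=
  Finset.card_le_card (Nat.divisors_subset_of_dvd hb h)

end

variable {n : ℕ}

theorem pow_isMul_apply {t : ℕ} {π : Equiv.Perm (Fin n)} (h : IsMul t π) (l : ℕ)
    (j : Fin n) : ((π ^ l) j : ℕ) = t ^ l * j % n := by
  induction l generalizing j with
  | zero => simp [Nat.mod_eq_of_lt j.2]
  | succ l ih =>
    rw [pow_succ, Equiv.Perm.mul_apply, ih, h j, Nat.mul_mod, Nat.mod_mod, ← Nat.mul_mod,
      ← mul_assoc, ← pow_succ]

theorem period_dvd {t : ℕ} {π : Equiv.Perm (Fin n)} (h : IsMul t π) {l : ℕ}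
    (j : Fin n) (hl : t ^ l * j % n = j) : Function.minimalPeriod π j ∣ l := by
  rw [← Function.isPeriodicPt_iff_minimalPeriod_dvd, Function.IsPeriodicPt, Function.IsFixedPt,
    Equiv.Perm.iterate_eq_pow]
  exact Fin.ext (by rw [pow_isMul_apply h, hl])

theorem sameCycle_of {t : ℕ} {π : Equiv.Perm (Fin n)} (h : IsMul t π) {l : ℕ}
    {i j : Fin n} (hl : t ^ l * i % n = j) : π.SameCycle i j :=
  ⟨l, by rw [zpow_natCast]; exact Fin.ext (by rw [pow_isMul_apply h, hl])⟩

/-- All `n`. -/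
theorem smul_bound_one {a m : ℕ} (hn : 0 < n) (h : ComputesDFT n a m) :
    n ≤ m + n.divisors.card := by
  have h1 := smul_bound hn h (t := 1) (Nat.coprime_one_left n) (π := 1)
    (fun j => by simp [Nat.mod_eq_of_lt j.2])
  have h2 := orb_sum_le (1 : Equiv.Perm (Fin n)) Finset.univ fun x =>
    ⟨x, Finset.mem_univ _, Equiv.Perm.SameCycle.refl _ _⟩
  have h3 : ∀ a : Fin n, (Function.minimalPeriod (1 : Equiv.Perm (Fin n)) a).divisors.card = 1 := by
    intro a
    have : Function.minimalPeriod (1 : Equiv.Perm (Fin n)) a = 1 := by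
      rw [Function.minimalPeriod_eq_one_iff_isFixedPt]; rfl
    rw [this]; simp
  simp only [h3, Finset.sum_const, Finset.card_univ, Fintype.card_fin, smul_eq_mul, mul_one] at h2
  omega

/-- Primes. -/
theorem smul_bound_prime {p a m : ℕ} (hp : p.Prime) (h : ComputesDFT p a m) :
    2 * p ≤ m + 3 + (p - 1).divisors.card := by
  classical
  have hpos := hp.pos
  have : Fact p.Prime := ⟨hp⟩
  obtain ⟨g, hg⟩ := IsCyclic.exists_generator (α := (ZMod p)ˣ)
  have hcop : (g : ZMod p).val.Coprime p := ZMod.val_coe_unit_coprime g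
  obtain ⟨π, hπ⟩ := exists_isMul hpos hcop
  have h1 := smul_bound hpos h hcop hπ
  let i0 : Fin p := ⟨0, hpos⟩
  let i1 : Fin p := ⟨1, hp.one_lt⟩
  have h01 : i0 ≠ i1 := by
    intro h; have := congrArg Fin.val h; simp [i0, i1] at this
  have hgpow : ∀ l : ℕ, (((g : ZMod p).val ^ l * 1 % p : ℕ) : ZMod p) = ((g ^ l : (ZMod p)ˣ) : ZMod p) := by
    intro l
    rw [mul_one, ZMod.natCast_mod]
    push_cast
    rw [ZMod.natCast_zmod_val]
  have h2 := orb_sum_le π {i0, i1} (by
    intro x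
    by_cases hx : (x : ℕ) = 0
    · refine ⟨i0, by simp, ?_⟩
      have : x = i0 := Fin.ext hx
      rw [this]
    · refine ⟨i1, by simp, ?_⟩
      have hx0 : ((x : ℕ) : ZMod p) ≠ 0 := by
        intro h0
        rw [ZMod.natCast_eq_zero_iff] at h0
        exact hx (Nat.eq_zero_of_dvd_of_lt h0 x.2)
      obtain ⟨l, hl⟩ := (mem_powers_iff_mem_zpowers.2 (hg (Units.mk0 _ hx0)))
      apply sameCycle_of hπ (l := l)
      have h3 := hgpow l
      have h4 : (g ^ l : (ZMod p)ˣ) = Units.mk0 _ hx0 := hl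
      rw [h4, Units.val_mk0] at h3
      have h5 := (ZMod.natCast_eq_natCast_iff _ _ _).1 h3
      have h6 : (g : ZMod p).val ^ l * 1 % p % p = (x : ℕ) % p := h5
      rw [Nat.mod_mod, Nat.mod_eq_of_lt x.2] at h6
      exact h6)
  rw [Finset.sum_pair h01] at h2
  have h3 : (Function.minimalPeriod π i0).divisors.card ≤ 1 := by
    have := card_divisors_le_of_dvd one_ne_zero (period_dvd hπ (l := 1) i0 (by simp [i0]))
    simpa using this
  have h4 : (Function.minimalPeriod π i1).divisors.card ≤ (p - 1).divisors.card := by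
    refine card_divisors_le_of_dvd (by have := hp.two_le; omega)
      (period_dvd hπ (l := p - 1) i1 ?_)
    have h5 := hgpow (p - 1)
    rw [ZMod.units_pow_card_sub_one_eq_one, Units.val_one] at h5
    have h5' : (((g : ZMod p).val ^ (p - 1) * 1 % p : ℕ) : ZMod p) = ((1 : ℕ) : ZMod p) := by
      rw [h5, Nat.cast_one]
    have h6 : (g : ZMod p).val ^ (p - 1) * 1 % p % p = 1 % p :=
      (ZMod.natCast_eq_natCast_iff _ _ _).1 h5'
    rw [Nat.mod_mod, Nat.mod_eq_of_lt hp.one_lt] at h6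
    exact h6
  rw [hp.divisors, Finset.card_pair hp.one_lt.ne] at h1
  omega

/-- Powers of `5` modulo `2 ^ i`. -/
theorem exists_pow_five (i u : ℕ) (hu : u % 4 = 1) : ∃ l : ℕ, 5 ^ l ≡ u [MOD 2 ^ (i + 2)] := by
  have h4 : ∀ l : ℕ, 5 ^ l % 2 ^ (i + 2) % 4 = 1 := by
    intro l
    have h1 : (4 : ℕ) ∣ 2 ^ (i + 2) := by rw [pow_add]; exact Dvd.intro_left _ rfl
    rw [Nat.mod_mod_of_dvd _ h1, Nat.pow_mod]
    norm_num
  have hpos : 0 < 2 ^ (i + 2) := by positivity
  have hdiv : ∀ x, x < 2 ^ (i + 2) → x / 4 < 2 ^ i := by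
    intro x hx
    apply Nat.div_lt_of_lt_mul
    rw [pow_add] at hx; omega
  let f : Fin (2 ^ i) → Fin (2 ^ i) := fun l =>
    ⟨5 ^ (l : ℕ) % 2 ^ (i + 2) / 4, hdiv _ (Nat.mod_lt _ hpos)⟩
  have hf : Function.Injective f := by
    intro l l' h
    have h1 : 5 ^ (l : ℕ) % 2 ^ (i + 2) / 4 = 5 ^ (l' : ℕ) % 2 ^ (i + 2) / 4 :=
      congrArg Fin.val h
    have h2 := h4 l
    have h3 := h4 l'
    have h5 : 5 ^ (l : ℕ) % 2 ^ (i + 2) = 5 ^ (l' : ℕ) % 2 ^ (i + 2) := by omega
    have h6 : ((5 ^ (l : ℕ) : ℕ) : ZMod (2 ^ (i + 2))) = ((5 ^ (l' : ℕ) : ℕ) : ZMod (2 ^ (i + 2))) :=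
      (ZMod.natCast_eq_natCast_iff _ _ _).2 h5
    push_cast at h6
    have h7 := ZMod.orderOf_five i
    have h8 := pow_injOn_Iio_orderOf (x := (5 : ZMod (2 ^ (i + 2))))
      (by rw [Set.mem_Iio, h7]; exact l.2) (by rw [Set.mem_Iio, h7]; exact l'.2) h6
    exact Fin.ext h8
  have hsurj : Function.Surjective f := Finite.injective_iff_surjective.1 hf
  obtain ⟨l, hl⟩ := hsurj ⟨u % 2 ^ (i + 2) / 4, hdiv _ (Nat.mod_lt _ hpos)⟩
  refine ⟨l, ?_⟩
  have h1 : 5 ^ (l : ℕ) % 2 ^ (i + 2) / 4 = u % 2 ^ (i + 2) / 4 := congrArg Fin.val hl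
  have h2 := h4 l
  have h3 : u % 2 ^ (i + 2) % 4 = 1 := by
    have h5 : (4 : ℕ) ∣ 2 ^ (i + 2) := by rw [pow_add]; exact Dvd.intro_left _ rfl
    rw [Nat.mod_mod_of_dvd _ h5, hu]
  change 5 ^ (l : ℕ) % 2 ^ (i + 2) = u % 2 ^ (i + 2)
  omega

theorem exists_three_pow_five (i u : ℕ) (hu : u % 4 = 3) :
    ∃ l : ℕ, 5 ^ l * 3 ≡ u [MOD 2 ^ (i + 2)] := by
  have h4 : (4 : ℕ) ∣ 2 ^ (i + 2) := by rw [pow_add]; exact Dvd.intro_left _ rfl
  have hcop : Nat.Coprime 3 (2 ^ (i + 2)) := Nat.Coprime.pow_right _ (by norm_num)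
  have : NeZero (2 ^ (i + 2)) := ⟨by positivity⟩
  obtain ⟨s, hs⟩ : ∃ s, 3 * s ≡ 1 [MOD 2 ^ (i + 2)] := by
    refine ⟨((ZMod.unitOfCoprime 3 hcop)⁻¹ : (ZMod (2 ^ (i + 2)))ˣ).1.val, ?_⟩
    rw [← ZMod.natCast_eq_natCast_iff]
    rw [Nat.cast_mul, ZMod.natCast_zmod_val, ← ZMod.coe_unitOfCoprime 3 hcop, Units.mul_inv,
      Nat.cast_one]
  have hs4 : 3 * s % 4 = 1 := by
    have := hs.of_dvd h4
    exact this
  obtain ⟨l, hl⟩ := exists_pow_five i (u * s) (by
    have h1 : s % 4 = 3 := by omega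
    rw [Nat.mul_mod, hu, h1])
  refine ⟨l, ?_⟩
  calc 5 ^ l * 3 ≡ u * s * 3 [MOD 2 ^ (i + 2)] := hl.mul_right 3
    _ = u * (3 * s) := by ring
    _ ≡ u * 1 [MOD 2 ^ (i + 2)] := hs.mul_left u
    _ = u := mul_one u

/-- Powers of two. -/
theorem smul_bound_two_pow {k a m : ℕ} (hk : 0 < k) (h : ComputesDFT (2 ^ k) a m) :
    2 * 2 ^ k ≤ m + k ^ 2 + 3 := by
  classical
  have hpos : 0 < 2 ^ k := by positivity
  have hcop : Nat.Coprime 5 (2 ^ k) := Nat.Coprime.pow_right _ (by norm_num)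
  obtain ⟨π, hπ⟩ := exists_isMul hpos hcop
  have h1 := smul_bound hpos h hcop hπ
  let F : ℕ × ℕ → Fin (2 ^ k) := fun p => ⟨p.2 * 2 ^ p.1 % 2 ^ k, Nat.mod_lt _ hpos⟩
  let A : Finset (ℕ × ℕ) := insert (0, 0) (insert (k - 1, 1) (Finset.range (k - 1) ×ˢ {1, 3}))
  have h2 := orb_sum_le' π A F (by
    intro x
    by_cases hx : (x : ℕ) = 0
    · refine ⟨(0, 0), by simp [A], ?_⟩
      have : x = F (0, 0) := Fin.ext (by simp [F, hx])
      rw [this]
    · obtain ⟨v, u, hu, hxu⟩ := Nat.exists_eq_two_pow_mul_odd hx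
      have hvk : v < k := by
        by_contra hcon
        have h3 : 2 ^ k ≤ 2 ^ v := Nat.pow_le_pow_right (by norm_num) (not_lt.1 hcon)
        have h4 : 2 ^ v * 1 ≤ 2 ^ v * u := Nat.mul_le_mul_left _ hu.pos
        have := x.2
        omega
      obtain ⟨i, hi⟩ : ∃ i, k = v + 1 + i := ⟨k - v - 1, by omega⟩
      rcases Nat.eq_zero_or_pos i with hi0 | hi0
      · refine ⟨(k - 1, 1), by simp [A], ?_⟩
        have h3 : k - 1 = v := by omega
        have h4 : x = F (k - 1, 1) := by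
          apply Fin.ext
          have h5 : u < 2 := by
            have h6 := x.2
            rw [hxu, hi, hi0, add_zero, pow_succ] at h6
            exact Nat.lt_of_mul_lt_mul_left h6
          have h7 : u = 1 := by have := hu.pos; omega
          simp only [F, h3, one_mul]
          rw [Nat.mod_eq_of_lt (Nat.pow_lt_pow_right (by norm_num) hvk), hxu, h7, mul_one]
        rw [h4]
      · obtain ⟨j, hj⟩ : ∃ j, k = v + (j + 2) := ⟨i - 1, by omega⟩
        have hodd : u % 4 = 1 ∨ u % 4 = 3 := by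
          have := Nat.odd_iff.1 hu; omega
        have key : ∀ c l : ℕ, 5 ^ l * c ≡ u [MOD 2 ^ (j + 2)] →
            π.SameCycle (F (v, c)) x := by
          intro c l hl
          apply sameCycle_of hπ (l := l)
          simp only [F]
          rw [Nat.mul_mod, Nat.mod_mod, ← Nat.mul_mod]
          have h5 : 5 ^ l * c * 2 ^ v ≡ u * 2 ^ v [MOD 2 ^ (j + 2) * 2 ^ v] :=
            Nat.ModEq.mul_right' _ hl
          have h6 : 2 ^ (j + 2) * 2 ^ v = 2 ^ k := by rw [hj, ← pow_add, add_comm]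
          rw [h6] at h5
          have h7 : 5 ^ l * (c * 2 ^ v) % 2 ^ k = u * 2 ^ v % 2 ^ k := by
            rw [← mul_assoc]; exact h5
          rw [h7, mul_comm u, ← hxu, Nat.mod_eq_of_lt x.2]
        rcases hodd with h4 | h4
        · obtain ⟨l, hl⟩ := exists_pow_five j u h4
          exact ⟨(v, 1), by simp only [A, Finset.mem_insert, Finset.mem_product,
            Finset.mem_range, Finset.mem_singleton]; right; right
                            exact ⟨by omega, by simp⟩, key 1 l (by rwa [mul_one])⟩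
        · obtain ⟨l, hl⟩ := exists_three_pow_five j u h4
          exact ⟨(v, 3), by simp only [A, Finset.mem_insert, Finset.mem_product,
            Finset.mem_range, Finset.mem_singleton]; right; right
                            exact ⟨by omega, by simp⟩, key 3 l hl⟩)
  -- the periods
  have hper : ∀ v < k - 1, ∀ c, (Function.minimalPeriod π (F (v, c))).divisors.card ≤ k - 1 - v := by
    intro v hv c
    obtain ⟨j, hj⟩ : ∃ j, k = v + (j + 2) := ⟨k - 2 - v, by omega⟩
    have h3 : Function.minimalPeriod π (F (v, c)) ∣ 2 ^ j := by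
      apply period_dvd hπ
      simp only [F]
      rw [Nat.mul_mod, Nat.mod_mod, ← Nat.mul_mod]
      have h4 : 5 ^ 2 ^ j ≡ 1 [MOD 2 ^ (j + 2)] := by
        rw [← ZMod.natCast_eq_natCast_iff]
        push_cast
        have := pow_orderOf_eq_one (5 : ZMod (2 ^ (j + 2)))
        rwa [ZMod.orderOf_five] at this
      have h5 : 5 ^ 2 ^ j * c * 2 ^ v ≡ 1 * c * 2 ^ v [MOD 2 ^ (j + 2) * 2 ^ v] :=
        Nat.ModEq.mul_right' _ (h4.mul_right c)
      have h6 : 2 ^ (j + 2) * 2 ^ v = 2 ^ k := by rw [hj, ← pow_add, add_comm]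
      rw [h6, one_mul, mul_assoc] at h5
      exact h5
    refine (card_divisors_le_of_dvd (by positivity) h3).trans ?_
    rw [Nat.divisors_prime_pow Nat.prime_two, Finset.card_map, Finset.card_range]
    omega
  have hone : ∀ p, (F p : ℕ) * 4 % 2 ^ k = 0 →
      (Function.minimalPeriod π (F p)).divisors.card ≤ 1 := by
    intro p hp
    have h3 := card_divisors_le_of_dvd one_ne_zero (period_dvd hπ (l := 1) (F p) (by
      rw [pow_one]
      have h4 : 5 * (F p : ℕ) = (F p : ℕ) * 4 + F p := by ring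
      rw [h4, Nat.add_mod, hp, zero_add, Nat.mod_mod, Nat.mod_eq_of_lt (F p).2]))
    simpa using h3
  have h3 : ∑ p ∈ A, (Function.minimalPeriod π (F p)).divisors.card ≤
      1 + (1 + ∑ v ∈ Finset.range (k - 1), 2 * (k - 1 - v)) := by
    have hn1 : ((0, 0) : ℕ × ℕ) ∉ (insert (k - 1, 1) (Finset.range (k - 1) ×ˢ {1, 3}) :
        Finset (ℕ × ℕ)) := by simp
    have hn2 : ((k - 1, 1) : ℕ × ℕ) ∉ (Finset.range (k - 1) ×ˢ {1, 3} : Finset (ℕ × ℕ)) := by simp
    rw [Finset.sum_insert hn1, Finset.sum_insert hn2, Finset.sum_product]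
    refine Nat.add_le_add (hone _ (by simp [F])) (Nat.add_le_add (hone _ ?_) ?_)
    · simp only [F, one_mul]
      rw [Nat.mod_eq_of_lt (Nat.pow_lt_pow_right (by norm_num) (by omega))]
      obtain ⟨j, hj⟩ : ∃ j, k = j + 1 := ⟨k - 1, by omega⟩
      have h4 : 2 ^ (k - 1) * 4 = 2 ^ k * 2 := by
        rw [hj, Nat.add_sub_cancel, pow_succ]; ring
      rw [h4, Nat.mul_mod_right]
    · refine Finset.sum_le_sum fun v hv => ?_
      rw [Finset.mem_range] at hv
      rw [Finset.sum_pair (by norm_num)]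
      have := hper v hv 1
      have := hper v hv 3
      omega
  have h4 : ∀ j : ℕ, ∑ v ∈ Finset.range j, 2 * (j - v) = j * (j + 1) := by
    intro j
    induction j with
    | zero => rfl
    | succ j ih =>
      rw [Finset.sum_range_succ]
      have h5 : ∑ v ∈ Finset.range j, 2 * (j + 1 - v) =
          ∑ v ∈ Finset.range j, (2 * (j - v) + 2) :=
        Finset.sum_congr rfl fun v hv => by rw [Finset.mem_range] at hv; omega
      rw [h5, Finset.sum_add_distrib, ih, Finset.sum_const, Finset.card_range, smul_eq_mul]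
      rw [Nat.add_sub_cancel_left]; ring
  rw [h4 (k - 1)] at h3
  rw [Nat.divisors_prime_pow Nat.prime_two, Finset.card_map, Finset.card_range] at h1
  obtain ⟨j, rfl⟩ : ∃ j, k = j + 1 := ⟨k - 1, by omega⟩
  simp only [Nat.add_sub_cancel] at h3
  nlinarith

end Vale.Agent.P344.H664
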