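import Mathlib

/-!
# Eliminating additions from a linear circuit

Coefficients are free of charge in this file: a gate computes `a • u + b • v`.
-/

namespace Vale.Agent.P344.H664

open Finset

variable {ι : Type} [DecidableEq ι]

/-- A gate together with the values it reads. -/
structure Gt (ι : Type) where
  a : ℂ
  b : ℂ
  u : ι → ℂ
  v : ι → ℂ

/-- The value of a gate. -/
def Gt.val (g : Gt ι) : ι → ℂ := g.a • g.u + g.b • g.v

/-- The unit vector. -/
def e (j : ι) : ι → ℂ := Pi.single j 1

/-- Values that may be read after the gates in `L`, with inputs `S`. -/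
def src (S : Finset ι) (L : List (Gt ι)) : Set (ι → ℂ) :=
  {w | w = 0 ∨ (∃ j ∈ S, w = e j) ∨ ∃ g ∈ L, w = g.val}

/-- The list of gates (last gate first) is a circuit with inputs `S`. -/
def ok (S : Finset ι) : List (Gt ι) → Prop
  | [] => True
  | g :: L => ok S L ∧ g.u ∈ src S L ∧ g.v ∈ src S L

/-- Multiples of available values. -/
def avail (S : Finset ι) (L : List (Gt ι)) : Set (ι → ℂ) :=
  {w | ∃ u ∈ src S L, ∃ c : ℂ, w = c • u}

/-- Set coordinate `z` to zero. -/
def rho (z : ι) (w : ι → ℂ) : ι → ℂ := fun j => if j = z then 0 else w j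

omit [DecidableEq ι] in
theorem zero_mem_src [DecidableEq ι] (S : Finset ι) (L : List (Gt ι)) : (0 : ι → ℂ) ∈ src S L :=
  Or.inl rfl

theorem src_cons {S : Finset ι} {L : List (Gt ι)} {g : Gt ι} {w : ι → ℂ} :
    w ∈ src S (g :: L) ↔ w = g.val ∨ w ∈ src S L := by
  constructor
  · rintro (h | h | ⟨g', hg', h⟩)
    · exact Or.inr (Or.inl h)
    · exact Or.inr (Or.inr (Or.inl h))
    · rcases List.mem_cons.1 hg' with rfl | hg'
      · exact Or.inl h
      · exact Or.inr (Or.inr (Or.inr ⟨g', hg', h⟩))
  · rintro (h | h | h | ⟨g', hg', h⟩)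
    · exact Or.inr (Or.inr ⟨g, List.mem_cons_self, h⟩)
    · exact Or.inl h
    · exact Or.inr (Or.inl h)
    · exact Or.inr (Or.inr ⟨g', List.mem_cons_of_mem _ hg', h⟩)

theorem src_mono_cons {S : Finset ι} {L : List (Gt ι)} {g : Gt ι} :
    src S L ⊆ src S (g :: L) := fun _ h => src_cons.2 (Or.inr h)

theorem avail_mono_cons {S : Finset ι} {L : List (Gt ι)} {g : Gt ι} :
    avail S L ⊆ avail S (g :: L) := by
  rintro w ⟨u, hu, c, rfl⟩
  exact ⟨u, src_mono_cons hu, c, rfl⟩

theorem src_sub_avail {S : Finset ι} {L : List (Gt ι)} : src S L ⊆ avail S L :=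
  fun w hw => ⟨w, hw, 1, by simp⟩

theorem smul_mem_avail {S : Finset ι} {L : List (Gt ι)} {w : ι → ℂ} (c : ℂ)
    (hw : w ∈ avail S L) : c • w ∈ avail S L := by
  obtain ⟨u, hu, d, rfl⟩ := hw
  exact ⟨u, hu, c * d, by rw [smul_smul]⟩

theorem rho_zero (z : ι) : rho z 0 = 0 := by
  funext j; simp [rho]

theorem rho_add (z : ι) (u v : ι → ℂ) : rho z (u + v) = rho z u + rho z v := by
  funext j; simp only [rho, Pi.add_apply]; split_ifs <;> simp

theorem rho_smul (z : ι) (c : ℂ) (u : ι → ℂ) : rho z (c • u) = c • rho z u := by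
  funext j; simp only [rho, Pi.smul_apply, smul_eq_mul]; split_ifs <;> simp

theorem rho_e_self (z : ι) : rho z (e z) = 0 := by
  funext j; simp only [rho, e]; split_ifs with h
  · rfl
  · simp [h]

theorem rho_e_ne {z j : ι} (h : j ≠ z) : rho z (e j) = e j := by
  funext i; simp only [rho, e]; split_ifs with h'
  · subst h'; simp [Ne.symm h]
  · rfl

open Classical in
/-- Number of gates that read `e z`. -/
noncomputable def cnt (z : ι) (L : List (Gt ι)) : ℕ :=
  L.countP fun g => decide (g.u = e z ∨ g.v = e z)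

theorem cnt_nil (z : ι) : cnt z ([] : List (Gt ι)) = 0 := rfl

theorem cnt_cons_of {z : ι} {g : Gt ι} {L : List (Gt ι)} (h : g.u = e z ∨ g.v = e z) :
    cnt z (g :: L) = cnt z L + 1 := by
  simp [cnt, h]

theorem cnt_cons_not {z : ι} {g : Gt ι} {L : List (Gt ι)} (h : ¬ (g.u = e z ∨ g.v = e z)) :
    cnt z (g :: L) = cnt z L := by
  simp [cnt, h]

/-- Restriction to `x_z = 0`: the gates that read `x_z` disappear. -/
theorem restrict (S : Finset ι) (z : ι) : ∀ L : List (Gt ι), ok S L →
    ∃ L' : List (Gt ι), ok (S.erase z) L' ∧ L'.length + cnt z L ≤ L.length ∧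
      ∀ w ∈ src S L, rho z w ∈ avail (S.erase z) L'
  | [], _ => by
    refine ⟨[], trivial, by simp [cnt_nil], ?_⟩
    rintro w (rfl | ⟨j, hj, rfl⟩ | ⟨g, hg, rfl⟩)
    · rw [rho_zero]; exact src_sub_avail (zero_mem_src _ _)
    · by_cases h : j = z
      · subst h; rw [rho_e_self]; exact src_sub_avail (zero_mem_src _ _)
      · rw [rho_e_ne h]
        exact src_sub_avail (Or.inr (Or.inl ⟨j, Finset.mem_erase.2 ⟨h, hj⟩, rfl⟩))
    · simp at hg
  | g :: L, hL => by
    obtain ⟨L', h1, h2, h3⟩ := restrict S z L hL.1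
    have hu := h3 _ hL.2.1
    have hv := h3 _ hL.2.2
    have hval : rho z g.val = g.a • rho z g.u + g.b • rho z g.v := by
      rw [Gt.val, rho_add, rho_smul, rho_smul]
    by_cases hz : g.u = e z ∨ g.v = e z
    · refine ⟨L', h1, ?_, ?_⟩
      · rw [cnt_cons_of hz, List.length_cons]; omega
      · intro w hw
        rcases src_cons.1 hw with rfl | hw
        · rw [hval]
          rcases hz with hz | hz
          · rw [hz, rho_e_self, smul_zero, zero_add]
            exact smul_mem_avail _ hv
          · rw [hz, rho_e_self, smul_zero, add_zero]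
            exact smul_mem_avail _ hu
        · exact h3 w hw
    · obtain ⟨u', hu', c, hc⟩ := hu
      obtain ⟨v', hv', d, hd⟩ := hv
      refine ⟨⟨g.a * c, g.b * d, u', v'⟩ :: L', ⟨h1, hu', hv'⟩, ?_, ?_⟩
      · rw [cnt_cons_not hz, List.length_cons, List.length_cons]; omega
      · intro w hw
        rcases src_cons.1 hw with rfl | hw
        · refine ⟨Gt.val ⟨g.a * c, g.b * d, u', v'⟩, src_cons.2 (Or.inl rfl), 1, ?_⟩
          rw [hval, hc, hd, Gt.val, one_smul, smul_smul, smul_smul]
        · exact avail_mono_cons (h3 w hw)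

/-- Replacing the first gates by an equally powerful shorter list. -/
theorem subst (S : Finset ι) (L0 L0' : List (Gt ι)) (h0 : ok S L0')
    (hsub : src S L0 ⊆ avail S L0') : ∀ L1 : List (Gt ι), ok S (L1 ++ L0) →
    ∃ L' : List (Gt ι), ok S L' ∧ L'.length = L1.length + L0'.length ∧
      src S (L1 ++ L0) ⊆ avail S L'
  | [], _ => ⟨L0', h0, by simp, hsub⟩
  | g :: L1, hL => by
    obtain ⟨L', h1, h2, h3⟩ := subst S L0 L0' h0 hsub L1 hL.1
    obtain ⟨u', hu', c, hc⟩ := h3 hL.2.1
    obtain ⟨v', hv', d, hd⟩ := h3 hL.2.2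
    refine ⟨⟨g.a * c, g.b * d, u', v'⟩ :: L', ⟨h1, hu', hv'⟩, ?_, ?_⟩
    · rw [List.length_cons, List.length_cons]; omega
    · intro w hw
      rcases src_cons.1 hw with rfl | hw
      · refine ⟨Gt.val ⟨g.a * c, g.b * d, u', v'⟩, src_cons.2 (Or.inl rfl), 1, ?_⟩
        rw [Gt.val, hc, hd, Gt.val, one_smul, smul_smul, smul_smul]
      · exact avail_mono_cons (h3 hw)

/-- If no gate reads `e z`, all values but `e z` vanish at `z`. -/
theorem coord_zero (S : Finset ι) (z : ι) : ∀ L : List (Gt ι), ok S L → cnt z L = 0 →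
    ∀ w ∈ src S L, w = e z ∨ w z = 0
  | [], _, _ => by
    rintro w (rfl | ⟨j, hj, rfl⟩ | ⟨g, hg, rfl⟩)
    · right; rfl
    · by_cases h : j = z
      · left; rw [h]
      · right; simp [e, Ne.symm h]
    · simp at hg
  | g :: L, hL, hc => by
    by_cases hz : g.u = e z ∨ g.v = e z
    · rw [cnt_cons_of hz] at hc; omega
    · rw [cnt_cons_not hz] at hc
      have ih := coord_zero S z L hL.1 hc
      intro w hw
      rcases src_cons.1 hw with rfl | hw
      · right
        have h1 := ih _ hL.2.1
        have h2 := ih _ hL.2.2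
        push Not at hz
        rcases h1 with h1 | h1
        · exact absurd h1 hz.1
        rcases h2 with h2 | h2
        · exact absurd h2 hz.2
        simp [Gt.val, h1, h2]
      · exact ih w hw

theorem e_apply_ne {x z : ι} (h : x ≠ z) : e x z = 0 := by
  simp [e, Ne.symm h]

theorem e_apply_self (x : ι) : e x x = 1 := by simp [e]

/-- If `e x`, `e z` are read by one gate only, the same for both, then the columns `x` and `z`
are proportional. -/
theorem coord_prop (S : Finset ι) {x z : ι} (hxz : x ≠ z) (g0 : Gt ι) (hu0 : g0.u = e x)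
    (hv0 : g0.v = e z) : ∀ L : List (Gt ι), ok S L → g0 ∈ L → cnt x L ≤ 1 → cnt z L ≤ 1 →
    ∀ w ∈ src S L, w = e x ∨ w = e z ∨ ∃ t : ℂ, w x = t * g0.a ∧ w z = t * g0.b
  | [], _, h, _, _ => by simp at h
  | g :: L, hL, hmem, hcx, hcz => by
    by_cases hg : g = g0
    · subst hg
      rw [cnt_cons_of (Or.inl hu0)] at hcx
      rw [cnt_cons_of (Or.inr hv0)] at hcz
      have hx := coord_zero S x L hL.1 (by omega)
      have hz := coord_zero S z L hL.1 (by omega)
      intro w hw
      rcases src_cons.1 hw with rfl | hw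
      · right; right
        refine ⟨1, ?_, ?_⟩
        · simp [Gt.val, hu0, hv0, e_apply_self, e_apply_ne hxz.symm]
        · simp [Gt.val, hu0, hv0, e_apply_self, e_apply_ne hxz]
      · rcases hx w hw with h | h
        · exact Or.inl h
        rcases hz w hw with h' | h'
        · exact Or.inr (Or.inl h')
        right; right
        exact ⟨0, by rw [h]; ring, by rw [h']; ring⟩
    · have hmem' : g0 ∈ L := by
        rcases List.mem_cons.1 hmem with h | h
        · exact absurd h.symm hg
        · exact h
      have hx1 : 1 ≤ cnt x L := by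
        unfold cnt
        exact List.countP_pos_iff.2 ⟨g0, hmem', by simp [hu0]⟩
      have hz1 : 1 ≤ cnt z L := by
        unfold cnt
        exact List.countP_pos_iff.2 ⟨g0, hmem', by simp [hv0]⟩
      have hgx : ¬ (g.u = e x ∨ g.v = e x) := by
        intro h
        rw [cnt_cons_of h] at hcx; omega
      have hgz : ¬ (g.u = e z ∨ g.v = e z) := by
        intro h
        rw [cnt_cons_of h] at hcz; omega
      rw [cnt_cons_not hgx] at hcx
      rw [cnt_cons_not hgz] at hcz
      have ih := coord_prop S hxz g0 hu0 hv0 L hL.1 hmem' hcx hcz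
      intro w hw
      rcases src_cons.1 hw with rfl | hw
      · push Not at hgx hgz
        right; right
        rcases ih _ hL.2.1 with h | h | ⟨t, ht1, ht2⟩
        · exact absurd h hgx.1
        · exact absurd h hgz.1
        rcases ih _ hL.2.2 with h | h | ⟨s, hs1, hs2⟩
        · exact absurd h hgx.2
        · exact absurd h hgz.2
        refine ⟨g.a * t + g.b * s, ?_, ?_⟩
        · simp only [Gt.val, Pi.add_apply, Pi.smul_apply, smul_eq_mul, ht1, hs1]; ring
        · simp only [Gt.val, Pi.add_apply, Pi.smul_apply, smul_eq_mul, ht2, hs2]; ring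
      · exact ih w hw

/-- Any family of forms with nonzero coefficients on `S` such that no two columns in `S` are
proportional needs `2(|S|-1)` additions. -/
theorem two_per_input {κ : Type} : ∀ (m : ℕ) (S : Finset ι), S.card = m + 1 →
    ∀ (y : κ → ι → ℂ), (∀ k, ∀ j ∈ S, y k j ≠ 0) →
    (∀ x ∈ S, ∀ z ∈ S, x ≠ z → ∃ k l, y k x * y l z ≠ y k z * y l x) →
    ∀ L : List (Gt ι), ok S L → (∀ k, y k ∈ avail S L) → 2 * m ≤ L.length
  | 0, _, _, _, _, _, _, _, _ => by omega
  | m + 1, S, hS, y, hy, hpair, L, hL, hout => by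
    classical
    -- a circuit of least size
    have hex : ∃ N, ∃ L : List (Gt ι), ok S L ∧ (∀ k, y k ∈ avail S L) ∧ L.length = N :=
      ⟨_, L, hL, hout, rfl⟩
    obtain ⟨M, hM, hMout, hMlen⟩ := Nat.find_spec hex
    have hmin : ∀ L' : List (Gt ι), ok S L' → (∀ k, y k ∈ avail S L') → M.length ≤ L'.length := by
      intro L' h1 h2
      rw [hMlen]
      exact Nat.find_min' hex ⟨L', h1, h2, rfl⟩
    refine le_trans ?_ (hmin L hL hout)
    -- two different inputs
    obtain ⟨p, hp, q, hq, hpq⟩ := Finset.one_lt_card.1 (by omega : 1 < S.card)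
    obtain ⟨k0, _, _⟩ := hpair p hp q hq hpq
    -- the reduction
    have reduce : ∀ z ∈ S, 2 ≤ cnt z M → 2 * (m + 1) ≤ M.length := by
      intro z hz hc
      obtain ⟨L', h1, h2, h3⟩ := restrict S z M hM
      have key := two_per_input m (S.erase z) (by rw [Finset.card_erase_of_mem hz]; omega)
        (fun k => rho z (y k)) (by
          intro k j hj
          rw [Finset.mem_erase] at hj
          simp only [rho, hj.1, if_false]
          exact hy k j hj.2) (by
          intro x hx w hw hxw
          rw [Finset.mem_erase] at hx hw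
          obtain ⟨k, l, hkl⟩ := hpair x hx.2 w hw.2 hxw
          refine ⟨k, l, ?_⟩
          simpa only [rho, hx.1, hw.1, if_false] using hkl) L' h1 (by
          intro k
          obtain ⟨u, hu, c, hc⟩ := hMout k
          rw [hc, rho_smul]
          exact smul_mem_avail _ (h3 u hu))
      omega
    -- the first gate
    rcases List.eq_nil_or_concat M with hnil | ⟨M1, g, hMg⟩
    · exfalso
      obtain ⟨u, hu, c, hc⟩ := hMout k0
      rw [hnil] at hu
      rcases hu with rfl | ⟨j, hj, rfl⟩ | ⟨g, hg, rfl⟩
      · apply hy k0 p hp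
        rw [hc]; simp
      · by_cases hjp : j = p
        · apply hy k0 q hq
          rw [hc]
          simp [e_apply_ne (show j ≠ q by rw [hjp]; exact hpq)]
        · apply hy k0 p hp
          rw [hc]
          simp [e_apply_ne hjp]
      · simp at hg
    · rw [List.concat_eq_append] at hMg
      have hokg : ∀ M1 : List (Gt ι), ok S (M1 ++ [g]) → ok S [g] := by
        intro M1
        induction M1 with
        | nil => exact fun h => h
        | cons a t ih => exact fun h => ih h.1
      have hg := hokg M1 (hMg ▸ hM)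
      have hnr : g.val ∉ avail S [] := by
        intro hin
        obtain ⟨L', h1, h2, h3⟩ := subst S [g] [] trivial (by
          intro w hw
          rcases src_cons.1 hw with rfl | hw
          · exact hin
          · exact src_sub_avail hw) M1 (hMg ▸ hM)
        have := hmin L' h1 (by
          intro k
          obtain ⟨u, hu, c, hc⟩ := hMout k
          rw [hc]
          exact smul_mem_avail _ (h3 (hMg ▸ hu)))
        rw [h2, hMg] at this
        simp at this
      have hsrc : ∀ w ∈ src S ([] : List (Gt ι)), w = 0 ∨ ∃ j ∈ S, w = e j := by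
        rintro w (rfl | ⟨j, hj, rfl⟩ | ⟨g, hg, rfl⟩)
        · exact Or.inl rfl
        · exact Or.inr ⟨j, hj, rfl⟩
        · simp at hg
      have hval : g.val = g.a • g.u + g.b • g.v := rfl
      rcases hsrc _ hg.2.1 with hu | ⟨x, hx, hu⟩
      · exact absurd (by rw [hval, hu, smul_zero, zero_add]
                         exact smul_mem_avail _ (src_sub_avail hg.2.2)) hnr
      rcases hsrc _ hg.2.2 with hv | ⟨z, hz, hv⟩
      · exact absurd (by rw [hval, hv, smul_zero, add_zero]
                         exact smul_mem_avail _ (src_sub_avail hg.2.1)) hnr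
      have hxz : x ≠ z := by
        rintro rfl
        apply hnr
        rw [hval, hu, hv, ← add_smul]
        exact smul_mem_avail _ (src_sub_avail (Or.inr (Or.inl ⟨x, hx, rfl⟩)))
      by_cases hcx : 2 ≤ cnt x M
      · exact reduce x hx hcx
      by_cases hcz : 2 ≤ cnt z M
      · exact reduce z hz hcz
      exfalso
      have hprop := coord_prop S hxz g hu hv M hM (by rw [hMg]; simp) (by omega) (by omega)
      have hk : ∀ k, ∃ t : ℂ, y k x = t * g.a ∧ y k z = t * g.b := by
        intro k
        obtain ⟨u, hu', c, hc⟩ := hMout k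
        rcases hprop u hu' with h | h | ⟨t, h1, h2⟩
        · exfalso
          apply hy k z hz
          rw [hc, h]; simp [e_apply_ne hxz]
        · exfalso
          apply hy k x hx
          rw [hc, h]; simp [e_apply_ne hxz.symm]
        · exact ⟨c * t, by rw [hc]; simp [h1]; ring, by rw [hc]; simp [h2]; ring⟩
      obtain ⟨k, l, hkl⟩ := hpair x hx z hz hxz
      obtain ⟨t, ht1, ht2⟩ := hk k
      obtain ⟨s, hs1, hs2⟩ := hk l
      apply hkl
      rw [ht1, ht2, hs1, hs2]; ring

/-- Pairwise non-proportional forms, none of them available at the start, cost one gate each. -/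
theorem one_per_output {κ : Type} [DecidableEq κ] (S : Finset ι) (y : κ → ι → ℂ)
    (hne : ∀ k, y k ∉ avail S []) (hprop : ∀ k l, k ≠ l → ∀ c : ℂ, y k ≠ c • y l) :
    ∀ (L : List (Gt ι)), ok S L → ∀ (K : Finset κ) (r : ℕ), r ≤ K.card →
      (∀ k ∈ K, y k ∈ avail S L) →
      ∃ (L' : List (Gt ι)) (K' : Finset κ), ok S L' ∧ K'.card = r ∧ (∀ k ∈ K', y k ∈ avail S L') ∧
        L'.length + K.card ≤ L.length + r
  | [], _, K, r, hr, hK => by
    have : K = ∅ := by
      rw [Finset.eq_empty_iff_forall_notMem]
      intro k hk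
      exact hne k (hK k hk)
    subst this
    refine ⟨[], ∅, trivial, ?_, by simp, by simp⟩
    simpa using (Nat.le_zero.1 (by simpa using hr)).symm
  | g :: L, hL, K, r, hr, hK => by
    classical
    by_cases hrK : r = K.card
    · exact ⟨g :: L, K, hL, hrK.symm, hK, by omega⟩
    set K1 := K.filter fun k => y k ∈ avail S L with hK1
    have hcard : K.card ≤ K1.card + 1 := by
      have h1 : (K.filter fun k => ¬ y k ∈ avail S L).card ≤ 1 := by
        rw [Finset.card_le_one]
        intro k hk l hl
        rw [Finset.mem_filter] at hk hl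
        by_contra hkl
        have key : ∀ k ∈ K, ¬ y k ∈ avail S L → ∃ c : ℂ, c ≠ 0 ∧ y k = c • g.val := by
          intro k hkK hk
          obtain ⟨u, hu, c, hc⟩ := hK k hkK
          rcases src_cons.1 hu with rfl | hu
          · refine ⟨c, ?_, hc⟩
            rintro rfl
            apply hk
            rw [hc, zero_smul]
            exact src_sub_avail (zero_mem_src _ _)
          · exact absurd ⟨u, hu, c, hc⟩ hk
        obtain ⟨c, hc0, hc⟩ := key k hk.1 hk.2
        obtain ⟨d, hd0, hd⟩ := key l hl.1 hl.2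
        apply hprop k l hkl (c * d⁻¹)
        rw [hc, hd, smul_smul, mul_assoc, inv_mul_cancel₀ hd0, mul_one]
      have h2 := Finset.card_filter_add_card_filter_not (s := K) (fun k => y k ∈ avail S L)
      rw [← hK1] at h2
      omega
    obtain ⟨L', K', h1, h2, h3, h4⟩ := one_per_output S y hne hprop L hL.1 K1 r (by omega)
      (fun k hk => (Finset.mem_filter.1 hk).2)
    refine ⟨L', K', h1, h2, h3, ?_⟩
    rw [List.length_cons]; omega

end Vale.Agent.P344.H664
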