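import Vale.Agent.P344.H664.Asym

/-!
# Bounds for `L(n)`
-/

namespace Vale.Agent.P344.H664

open Module

section
variable {ι : Type} [DecidableEq ι]

theorem Circ.start_sub {a m : ℕ} {V : Set (ι → ℂ)} (h : Circ a m V) :
    ∀ w : ι → ℂ, (w = 0 ∨ ∃ j, w = Pi.single j 1) → w ∈ V := by
  induction h with
  | start => exact fun w hw => hw
  | add _ _ _ ih => exact fun w hw => Set.mem_insert_of_mem _ (ih w hw)
  | sub _ _ _ ih => exact fun w hw => Set.mem_insert_of_mem _ (ih w hw)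
  | smul _ _ _ ih => exact fun w hw => Set.mem_insert_of_mem _ (ih w hw)

theorem extend_sum (w : ι → ℂ) (s : Finset ι) {a m : ℕ} {V : Set (ι → ℂ)} (h : Circ a m V) :
    ∃ a' m' V', Circ a' m' V' ∧ V ⊆ V' ∧ (∑ j ∈ s, w j • (Pi.single j 1 : ι → ℂ)) ∈ V' := by
  induction s using Finset.induction_on with
  | empty => exact ⟨a, m, V, h, le_rfl, h.start_sub _ (Or.inl (by simp))⟩
  | insert j s hj ih =>
    obtain ⟨a', m', V', h1, h2, h3⟩ := ih
    have h4 := Circ.smul (w j) h1 (h1.start_sub (Pi.single j 1) (Or.inr ⟨j, rfl⟩))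
    have h5 := Circ.add h4 (Set.mem_insert _ _) (Set.mem_insert_of_mem _ h3)
    refine ⟨_, _, _, h5, ?_, ?_⟩
    · exact h2.trans ((Set.subset_insert _ _).trans (Set.subset_insert _ _))
    · rw [Finset.sum_insert hj]
      exact Set.mem_insert _ _

theorem extend_all [Fintype ι] {κ : Type} [DecidableEq κ] (y : κ → ι → ℂ) (s : Finset κ) :
    ∃ a m, ∃ V : Set (ι → ℂ), Circ a m V ∧ ∀ k ∈ s, y k ∈ V := by
  induction s using Finset.induction_on with
  | empty => exact ⟨0, 0, _, Circ.start, by simp⟩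
  | insert k s hk ih =>
    obtain ⟨a, m, V, h1, h2⟩ := ih
    obtain ⟨a', m', V', h3, h4, h5⟩ := extend_sum (y k) Finset.univ h1
    refine ⟨a', m', V', h3, ?_⟩
    intro l hl
    rcases Finset.mem_insert.1 hl with rfl | hl
    · convert h5
      funext i
      rw [Finset.sum_apply, Finset.sum_eq_single i]
      · simp
      · intro b _ hb; simp [Ne.symm hb]
      · simp
    · exact h4 (h2 l hl)

end

theorem isLeast_L (n : ℕ) : IsLeast {s | ∃ a m, ComputesDFT n a m ∧ a + m = s} (L n) := by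
  classical
  obtain ⟨a, m, V, h1, h2⟩ := extend_all (dftMat n) Finset.univ
  have hne : {s | ∃ a m, ComputesDFT n a m ∧ a + m = s}.Nonempty :=
    ⟨a + m, a, m, ⟨V, h1, fun j => h2 j (Finset.mem_univ _)⟩, rfl⟩
  exact ⟨Nat.sInf_mem hne, fun s hs => Nat.sInf_le hs⟩

theorem L_all {n : ℕ} (hn : 2 ≤ n) : 4 * n ≤ L n + n / n.minFac + n.divisors.card + 3 := by
  obtain ⟨a, m, h, hs⟩ := (isLeast_L n).1
  have h1 := adds_bound hn h
  have h2 := smul_bound_one (by omega) h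
  omega

theorem L_prime {p : ℕ} (hp : p.Prime) : 5 * p ≤ L p + (p - 1).divisors.card + 7 := by
  obtain ⟨a, m, h, hs⟩ := (isLeast_L p).1
  have h1 := adds_bound hp.two_le h
  have h2 := smul_bound_prime hp h
  rw [hp.minFac_eq, Nat.div_self hp.pos] at h1
  omega

theorem L_two_pow {k : ℕ} (hk : 1 ≤ k) : 9 * 2 ^ k ≤ 2 * L (2 ^ k) + 2 * k ^ 2 + 12 := by
  obtain ⟨a, m, h, hs⟩ := (isLeast_L (2 ^ k)).1
  obtain ⟨j, rfl⟩ : ∃ j, k = j + 1 := ⟨k - 1, by omega⟩
  have h2k : 2 ≤ 2 ^ (j + 1) := by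
    rw [pow_succ]
    have : 0 < 2 ^ j := by positivity
    omega
  have h1 := adds_bound h2k h
  have h2 := smul_bound_two_pow (show 0 < j + 1 by omega) h
  rw [Nat.pow_minFac (Nat.succ_ne_zero j), Nat.prime_two.minFac_eq, pow_succ,
    Nat.mul_div_cancel _ (by norm_num : 0 < 2)] at h1
  rw [pow_succ 2 j] at hs h2 ⊢
  omega

theorem L_asymp (ε : ℝ) (hε : 0 < ε) : ∃ N : ℕ, ∀ n ≥ N,
    (5 - ε) * n - (n / n.minFac : ℕ) ≤ L n ∧ (9 / 2 - ε) * n ≤ L n := by
  obtain ⟨K, hK⟩ := exists_nat_gt (10 / ε)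
  have hK0 : 0 < K := by
    have : (0 : ℝ) < K := lt_trans (by positivity) hK
    exact_mod_cast this
  have hKε : 10 < K * ε := by rwa [div_lt_iff₀ hε] at hK
  obtain ⟨N, hN⟩ := smul_bound_asymp K hK0
  obtain ⟨N', hN'⟩ := exists_nat_gt (6 / ε)
  refine ⟨max N (max N' 2), fun n hn => ?_⟩
  have hn1 : N ≤ n := le_trans (le_max_left _ _) hn
  have hn2 : N' ≤ n := le_trans ((le_max_left _ _).trans (le_max_right _ _)) hn
  have hn3 : 2 ≤ n := le_trans ((le_max_right _ _).trans (le_max_right _ _)) hn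
  obtain ⟨a, m, h, hs⟩ := (isLeast_L n).1
  have h1 := adds_bound hn3 h
  have h2 := hN n hn1 a m h
  have hKr : (0 : ℝ) < K := by exact_mod_cast hK0
  have hnr : (0 : ℝ) < n := by exact_mod_cast (show 0 < n by omega)
  have h3 : 6 < n * ε := by
    have h4 : (6 : ℝ) / ε < n := lt_of_lt_of_le hN' (by exact_mod_cast hn2)
    rwa [div_lt_iff₀ hε] at h4
  have h4 : (K : ℝ) * (2 * n) ≤ K * m + 5 * n := by exact_mod_cast h2
  have h5 : (3 : ℝ) * n ≤ a + (n / n.minFac : ℕ) + 3 := by exact_mod_cast h1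
  have h6 : ((L n : ℕ) : ℝ) = a + m := by rw [← hs]; push_cast; ring
  have h7 : (2 - ε / 2) * n ≤ m := by
    have h8 : (K : ℝ) * ((2 - ε / 2) * n) ≤ K * m := by nlinarith
    exact le_of_mul_le_mul_left h8 hKr
  have h8 : (5 - ε) * n - (n / n.minFac : ℕ) ≤ (L n : ℝ) := by
    rw [h6]; nlinarith
  refine ⟨h8, ?_⟩
  have h9 : ((n / n.minFac : ℕ) : ℝ) ≤ n / 2 := by
    have hmf : 2 ≤ n.minFac := (Nat.minFac_prime (by omega)).two_le
    have h10 : n / n.minFac ≤ n / 2 := Nat.div_le_div_left hmf (by norm_num)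
    calc ((n / n.minFac : ℕ) : ℝ) ≤ ((n / 2 : ℕ) : ℝ) := by exact_mod_cast h10
      _ ≤ (n : ℝ) / 2 := by exact_mod_cast Nat.cast_div_le
  linarith

end Vale.Agent.P344.H664
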