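import Vale.Agent.P344.H664.Defs

/-!
# Scalar multiplications: structure of a circuit over the rational numbers
-/

namespace Vale.Agent.P344.H664

open Module

variable {ι : Type} [Fintype ι] [DecidableEq ι]

/-- The value of the linear form `w` at the rational point `x`. -/
def pr (x : ι → ℚ) (w : ι → ℂ) : ℂ := ∑ j, (x j : ℂ) * w j

omit [DecidableEq ι] in
theorem pr_add_right (x : ι → ℚ) (v w : ι → ℂ) : pr x (v + w) = pr x v + pr x w := by
  simp only [pr, Pi.add_apply, mul_add, Finset.sum_add_distrib]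

omit [DecidableEq ι] in
theorem pr_smul_right (x : ι → ℚ) (c : ℂ) (w : ι → ℂ) : pr x (c • w) = c * pr x w := by
  simp only [pr, Pi.smul_apply, smul_eq_mul, Finset.mul_sum]
  exact Finset.sum_congr rfl fun j _ => by ring

omit [DecidableEq ι] in
theorem pr_qsmul_right (x : ι → ℚ) (c : ℚ) (w : ι → ℂ) : pr x (c • w) = (c : ℂ) * pr x w := by
  rw [← pr_smul_right]
  congr 1

omit [DecidableEq ι] in
theorem pr_zero_right (x : ι → ℚ) : pr x (0 : ι → ℂ) = 0 := by simp [pr]

omit [DecidableEq ι] in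
theorem pr_add_left (x y : ι → ℚ) (w : ι → ℂ) : pr (x + y) w = pr x w + pr y w := by
  simp only [pr, Pi.add_apply, Rat.cast_add, add_mul, Finset.sum_add_distrib]

omit [DecidableEq ι] in
theorem pr_smul_left (c : ℚ) (x : ι → ℚ) (w : ι → ℂ) : pr (c • x) w = c • pr x w := by
  simp only [pr, Pi.smul_apply, smul_eq_mul, Rat.cast_mul, Rat.smul_def, Finset.mul_sum]
  exact Finset.sum_congr rfl fun j _ => by ring

/-- `pr` as a linear map in the point. -/
def prL (w : ι → ℂ) : (ι → ℚ) →ₗ[ℚ] ℂ where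
  toFun x := pr x w
  map_add' x y := pr_add_left x y w
  map_smul' c x := pr_smul_left c x w

/-- Forms that take rational values on `W`. -/
def RatOn (W : Submodule ℚ (ι → ℚ)) : Submodule ℚ (ι → ℂ) where
  carrier := {w | ∀ x ∈ W, ∃ q : ℚ, pr x w = q}
  add_mem' := by
    intro v w hv hw x hx
    obtain ⟨p, hp⟩ := hv x hx
    obtain ⟨q, hq⟩ := hw x hx
    exact ⟨p + q, by rw [pr_add_right, hp, hq]; push_cast; rfl⟩
  zero_mem' := fun x _ => ⟨0, by rw [pr_zero_right]; simp⟩
  smul_mem' := by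
    intro c w hw x hx
    obtain ⟨q, hq⟩ := hw x hx
    exact ⟨c * q, by rw [pr_qsmul_right, hq]; push_cast; rfl⟩

omit [DecidableEq ι] in
theorem mem_RatOn {W : Submodule ℚ (ι → ℚ)} {w : ι → ℂ} :
    w ∈ RatOn W ↔ ∀ x ∈ W, ∃ q : ℚ, pr x w = q := Iff.rfl

omit [DecidableEq ι] in
theorem RatOn_anti {W W' : Submodule ℚ (ι → ℚ)} (h : W' ≤ W) : RatOn W ≤ RatOn W' :=
  fun _ hw x hx => hw x (h hx)

/-- A rational vector as a complex vector. -/
noncomputable def rv (q : ι → ℚ) : ι → ℂ := fun j => (q j : ℂ)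

omit [DecidableEq ι] in
theorem rv_mem (W : Submodule ℚ (ι → ℚ)) (q : ι → ℚ) : rv q ∈ RatOn W := fun x _ =>
  ⟨∑ j, x j * q j, by simp [pr, rv]⟩

omit [Fintype ι] [DecidableEq ι] in
theorem rv_add (p q : ι → ℚ) : rv (p + q) = rv p + rv q := by
  funext j; simp [rv]

omit [Fintype ι] [DecidableEq ι] in
theorem rv_sub (p q : ι → ℚ) : rv (p - q) = rv p - rv q := by
  funext j; simp [rv]

/-- The span of the first `i` values. -/
noncomputable def spn (c : ℕ → ι → ℂ) (i : ℕ) : Submodule ℚ (ι → ℂ) := Submodule.span ℚ (c '' {l | l < i})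

omit [Fintype ι] [DecidableEq ι] in
theorem spn_mono (c : ℕ → ι → ℂ) {i j : ℕ} (h : i ≤ j) : spn c i ≤ spn c j :=
  Submodule.span_mono (Set.image_mono fun _ hl => lt_of_lt_of_le hl h)

omit [Fintype ι] [DecidableEq ι] in
theorem spn_congr {c c' : ℕ → ι → ℂ} {i : ℕ} (h : ∀ l < i, c l = c' l) : spn c i = spn c' i := by
  unfold spn
  congr 1
  exact Set.image_congr fun l hl => h l hl

omit [Fintype ι] in
/-- **Structure of a circuit**: with `c_0, c_1, …` the values of the scalar multiplications, each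
`c_i` is a complex multiple of a rational form plus a rational combination of earlier `c_l`, and
every value is a rational form plus a rational combination of the `c_l`. -/
theorem circ_struct {a m : ℕ} {V : Set (ι → ℂ)} (h : Circ a m V) :
    ∃ (c : ℕ → ι → ℂ) (r : ℕ → ι → ℚ),
      (∀ i < m, ∃ μ : ℂ, ∃ b ∈ spn c i, c i = μ • (rv (r i) + b)) ∧
      ∀ w ∈ V, ∃ q : ι → ℚ, ∃ b ∈ spn c m, w = rv q + b := by
  induction h with
  | start =>
    refine ⟨0, 0, fun i hi => absurd hi (Nat.not_lt_zero _), ?_⟩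
    rintro w (rfl | ⟨j, rfl⟩)
    · exact ⟨0, 0, Submodule.zero_mem _, by funext j; simp [rv]⟩
    · refine ⟨Pi.single j 1, 0, Submodule.zero_mem _, ?_⟩
      funext i
      by_cases h : i = j
      · subst h; simp [rv]
      · simp [rv, h]
  | @add a m V u v _ hu hv ih =>
    obtain ⟨c, r, h1, h2⟩ := ih
    refine ⟨c, r, h1, ?_⟩
    intro w hw
    rcases Set.mem_insert_iff.1 hw with rfl | hw
    · obtain ⟨p, b, hb, rfl⟩ := h2 u hu
      obtain ⟨q, d, hd, rfl⟩ := h2 v hv
      exact ⟨p + q, b + d, Submodule.add_mem _ hb hd, by rw [rv_add]; abel⟩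
    · exact h2 w hw
  | @sub a m V u v _ hu hv ih =>
    obtain ⟨c, r, h1, h2⟩ := ih
    refine ⟨c, r, h1, ?_⟩
    intro w hw
    rcases Set.mem_insert_iff.1 hw with rfl | hw
    · obtain ⟨p, b, hb, rfl⟩ := h2 u hu
      obtain ⟨q, d, hd, rfl⟩ := h2 v hv
      exact ⟨p - q, b - d, Submodule.sub_mem _ hb hd, by rw [rv_sub]; abel⟩
    · exact h2 w hw
  | @smul a m V u μ _ hu ih =>
    obtain ⟨c, r, h1, h2⟩ := ih
    obtain ⟨p, b, hb, hub⟩ := h2 u hu
    have hc : ∀ i ≤ m, ∀ l < i, c l = Function.update c m (μ • u) l := by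
      intro i hi l hl
      rw [Function.update_of_ne]
      omega
    refine ⟨Function.update c m (μ • u), Function.update r m p, ?_, ?_⟩
    · intro i hi
      by_cases him : i = m
      · subst him
        refine ⟨μ, b, ?_, ?_⟩
        · rw [← spn_congr (hc i le_rfl)]; exact hb
        · rw [Function.update_self, Function.update_self, hub]
      · obtain ⟨ν, d, hd, hcd⟩ := h1 i (by omega)
        refine ⟨ν, d, ?_, ?_⟩
        · rw [← spn_congr (hc i (by omega))]; exact hd
        · rw [Function.update_of_ne him, Function.update_of_ne him, hcd]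
    · intro w hw
      rcases Set.mem_insert_iff.1 hw with rfl | hw
      · refine ⟨0, μ • u, ?_, ?_⟩
        · apply Submodule.subset_span
          exact ⟨m, Nat.lt_succ_self m, by rw [Function.update_self]⟩
        · funext j; simp [rv]
      · obtain ⟨q, d, hd, hwd⟩ := h2 w hw
        refine ⟨q, d, ?_, hwd⟩
        apply spn_mono _ (Nat.le_succ m)
        rw [← spn_congr (hc m le_rfl)]; exact hd

/-- Comparison of preimages. -/
theorem finrank_comap_le {U E : Type} [AddCommGroup U] [Module ℚ U] [FiniteDimensional ℚ U]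
    [AddCommGroup E] [Module ℚ E] (β : U →ₗ[ℚ] E) (Y Y' : Submodule ℚ E)
    [FiniteDimensional ℚ Y'] (h : Y ≤ Y') :
    finrank ℚ (Y'.comap β) + finrank ℚ Y ≤ finrank ℚ (Y.comap β) + finrank ℚ Y' := by
  have h1 := LinearMap.finrank_range_add_finrank_ker (Y.mkQ.domRestrict Y')
  have h2 := LinearMap.finrank_range_add_finrank_ker ((Y.mkQ.comp β).domRestrict (Y'.comap β))
  have e1 : finrank ℚ (LinearMap.ker (Y.mkQ.domRestrict Y')) = finrank ℚ Y := by
    have : LinearMap.ker (Y.mkQ.domRestrict Y') = Y.comap Y'.subtype := by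
      ext x
      simp [LinearMap.domRestrict_apply]
    rw [this]
    exact (Submodule.comapSubtypeEquivOfLe h).finrank_eq
  have e2 : finrank ℚ (LinearMap.ker ((Y.mkQ.comp β).domRestrict (Y'.comap β))) =
      finrank ℚ (Y.comap β) := by
    have : LinearMap.ker ((Y.mkQ.comp β).domRestrict (Y'.comap β)) =
        (Y.comap β).comap (Y'.comap β).subtype := by
      ext x
      simp [LinearMap.domRestrict_apply]
    rw [this]
    exact (Submodule.comapSubtypeEquivOfLe (Submodule.comap_mono h)).finrank_eq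
  have e3 : finrank ℚ (LinearMap.range ((Y.mkQ.comp β).domRestrict (Y'.comap β))) ≤
      finrank ℚ (LinearMap.range (Y.mkQ.domRestrict Y')) := by
    apply Submodule.finrank_mono
    rintro _ ⟨x, rfl⟩
    exact ⟨⟨β x.1, x.2⟩, rfl⟩
  omega

omit [DecidableEq ι] in
/-- Killing the first gate that is not rational on `W`. -/
theorem kill {c : ℕ → ι → ℂ} {r : ℕ → ι → ℚ} {m : ℕ}
    (hc : ∀ i < m, ∃ μ : ℂ, ∃ b ∈ spn c i, c i = μ • (rv (r i) + b))
    (W : Submodule ℚ (ι → ℚ)) (hW : ¬ spn c m ≤ RatOn W) :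
    ∃ W' : Submodule ℚ (ι → ℚ), W' ≤ W ∧ finrank ℚ W' < finrank ℚ W ∧
      finrank ℚ W ≤ finrank ℚ W' + 1 ∧ ∃ w ∈ spn c m, w ∈ RatOn W' ∧ w ∉ RatOn W := by
  classical
  have hex : ∃ i, i < m ∧ c i ∉ RatOn W := by
    by_contra hcon
    push Not at hcon
    apply hW
    refine Submodule.span_le.2 ?_
    rintro _ ⟨i, hi, rfl⟩
    exact hcon i hi
  obtain ⟨him, hci⟩ := Nat.find_spec hex
  set i := Nat.find hex with hi
  have hlt : ∀ l < i, c l ∈ RatOn W := by
    intro l hl
    by_contra hcon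
    exact Nat.find_min hex hl ⟨by omega, hcon⟩
  obtain ⟨μ, b, hb, hcb⟩ := hc i him
  have hbW : b ∈ RatOn W := by
    refine Submodule.span_le.2 ?_ hb
    rintro _ ⟨l, hl, rfl⟩
    exact hlt l hl
  set u := rv (r i) + b with hu
  have huW : u ∈ RatOn W := Submodule.add_mem _ (rv_mem W _) hbW
  let φ : W →ₗ[ℚ] ℂ := (prL u).domRestrict W
  have hφ : ∀ x : W, φ x = pr (x : ι → ℚ) u := fun _ => rfl
  refine ⟨(LinearMap.ker φ).map W.subtype, Submodule.map_subtype_le _ _, ?_, ?_, c i,
    Submodule.subset_span ⟨i, him, rfl⟩, ?_, hci⟩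
  · have h1 := LinearMap.finrank_range_add_finrank_ker φ
    rw [Submodule.finrank_map_subtype_eq]
    have h2 : 0 < finrank ℚ (LinearMap.range φ) := by
      rw [Module.finrank_pos_iff_exists_ne_zero]
      by_contra hcon
      push Not at hcon
      apply hci
      intro x hx
      refine ⟨0, ?_⟩
      have h3 : φ ⟨x, hx⟩ = 0 := by
        have := hcon ⟨φ ⟨x, hx⟩, ⟨_, rfl⟩⟩
        exact congrArg Subtype.val this
      rw [hφ] at h3
      rw [hcb, pr_smul_right, h3]
      simp
    omega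
  · have h1 := LinearMap.finrank_range_add_finrank_ker φ
    rw [Submodule.finrank_map_subtype_eq]
    have h2 : finrank ℚ (LinearMap.range φ) ≤ 1 := by
      have h3 : LinearMap.range φ ≤ Submodule.span ℚ {(1 : ℂ)} := by
        rintro _ ⟨x, rfl⟩
        obtain ⟨q, hq⟩ := huW x.1 x.2
        rw [hφ, hq, Submodule.mem_span_singleton]
        exact ⟨q, by simp⟩
      exact (Submodule.finrank_mono h3).trans (finrank_span_le_card _ |>.trans (by simp))
    omega
  · rintro _ ⟨x, hx, rfl⟩
    refine ⟨0, ?_⟩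
    have h3 : φ x = 0 := hx
    rw [hφ] at h3
    rw [hcb, pr_smul_right]
    simp only [Submodule.coe_subtype]
    rw [h3]
    simp

end Vale.Agent.P344.H664
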