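import Vale.Agent.P344.H664.Adds
import Vale.Agent.P344.H664.Scal

/-!
# Conjugation of rational combinations of roots of unity
-/

namespace Vale.Agent.P344.H664

open Polynomial Module

/-- Conjugation. -/
theorem conj_sum {n : ℕ} (hn : 0 < n) {ζ : ℂ} (hζ : IsPrimitiveRoot ζ n) {s : ℕ}
    (hs : s.Coprime n) {α : Type} (A : Finset α) (c : α → ℚ) (e : α → ℕ) (q : ℚ)
    (h : ∑ a ∈ A, (c a : ℂ) * ζ ^ e a = q) : ∑ a ∈ A, (c a : ℂ) * ζ ^ (s * e a) = q := by
  have hζ' := hζ.pow_of_coprime s hs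
  let P : ℚ[X] := ∑ a ∈ A, Polynomial.C (c a) * Polynomial.X ^ e a - Polynomial.C q
  have hP : ∀ z : ℂ, aeval z P = ∑ a ∈ A, (c a : ℂ) * z ^ e a - q := by
    intro z
    simp [P, map_sum]
  have h1 : aeval ζ P = 0 := by rw [hP, h, sub_self]
  have h2 : minpoly ℚ ζ ∣ P := minpoly.dvd ℚ ζ h1
  rw [← cyclotomic_eq_minpoly_rat hζ hn, cyclotomic_eq_minpoly_rat hζ' hn] at h2
  have h3 : aeval (ζ ^ s) P = 0 := by
    obtain ⟨Q, hQ⟩ := h2
    rw [hQ, map_mul, minpoly.aeval, zero_mul]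
  rw [hP, sub_eq_zero] at h3
  rw [← h3]
  exact Finset.sum_congr rfl fun a _ => by rw [← pow_mul]

variable {n : ℕ}

/-- `ζ_n`. -/
noncomputable def zt (n : ℕ) : ℂ := Complex.exp (2 * Real.pi * Complex.I / n)

theorem dftMat_eq (j k : Fin n) : dftMat n j k = zt n ^ ((j : ℕ) * (k : ℕ)) := rfl

theorem zt_prim (hn : 0 < n) : IsPrimitiveRoot (zt n) n := zeta_prim hn.ne'

/-- The permutation `π` is multiplication by `t` modulo `n`. -/
def IsMul (t : ℕ) (π : Equiv.Perm (Fin n)) : Prop := ∀ j, (π j : ℕ) = t * j % n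

theorem pow_isMul (hn : 0 < n) {t : ℕ} {π : Equiv.Perm (Fin n)} (h : IsMul t π) (j : Fin n)
    (k : ℕ) : zt n ^ ((π j : ℕ) * k) = zt n ^ (t * ((j : ℕ) * k)) := by
  have h1 : (zt n) ^ (π j : ℕ) = (zt n) ^ (t * (j : ℕ)) := by
    rw [h j]
    conv_rhs => rw [← Nat.div_add_mod (t * (j : ℕ)) n]
    rw [pow_add, pow_mul, (zt_prim hn).pow_eq_one, one_pow, one_mul]
  rw [pow_mul, h1, ← pow_mul, mul_assoc]

/-- Every multiplication by a unit is a permutation. -/
theorem exists_isMul (hn : 0 < n) {t : ℕ} (ht : t.Coprime n) :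
    ∃ π : Equiv.Perm (Fin n), IsMul t π := by
  let f : Fin n → Fin n := fun j => ⟨t * j % n, Nat.mod_lt _ hn⟩
  have hf : Function.Injective f := by
    intro i j hij
    have h1 : t * (i : ℕ) ≡ t * j [MOD n] := congrArg Fin.val hij
    have h2 := Nat.ModEq.cancel_left_of_coprime (by rwa [Nat.gcd_comm]) h1
    have h3 : (i : ℕ) % n = j % n := h2
    rw [Nat.mod_eq_of_lt i.2, Nat.mod_eq_of_lt j.2] at h3
    exact Fin.ext h3
  exact ⟨Equiv.ofBijective f (Finite.injective_iff_bijective.1 hf), fun j => rfl⟩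

/-- A rational vector with rational Fourier transform is invariant under multiplications. -/
theorem invariant_of_rational (hn : 0 < n) (x : Fin n → ℚ)
    (hx : ∀ k : Fin n, ∃ q : ℚ, pr x (dftMat n k) = q) {t : ℕ} (ht : t.Coprime n)
    {π : Equiv.Perm (Fin n)} (hπ : IsMul t π) (j : Fin n) : x (π j) = x j := by
  have hζ := zt_prim hn
  -- both transforms agree
  have key : ∀ k : Fin n, ∑ j, ((x j - x (π j) : ℚ) : ℂ) * (zt n ^ (π j : ℕ)) ^ (k : ℕ) = 0 := by
    intro k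
    obtain ⟨q, hq⟩ := hx k
    have h1 : ∑ j, (x j : ℂ) * zt n ^ ((j : ℕ) * k) = q := by
      rw [← hq, pr]
      exact Finset.sum_congr rfl fun j _ => by rw [dftMat_eq, mul_comm (k : ℕ)]
    have h2 := conj_sum hn hζ ht Finset.univ x (fun j => (j : ℕ) * k) q h1
    have h3 : ∑ j, (x (π j) : ℂ) * zt n ^ ((π j : ℕ) * k) = q := by
      rw [Equiv.sum_comp π (fun j => (x j : ℂ) * zt n ^ ((j : ℕ) * k))]
      exact h1
    have h4 : ∑ j, (x j : ℂ) * zt n ^ ((π j : ℕ) * k) = q := by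
      rw [← h2]
      exact Finset.sum_congr rfl fun j _ => by rw [pow_isMul hn hπ]
    have h5 : ∀ j, ((x j - x (π j) : ℚ) : ℂ) * (zt n ^ (π j : ℕ)) ^ (k : ℕ) =
        (x j : ℂ) * zt n ^ ((π j : ℕ) * k) - (x (π j) : ℂ) * zt n ^ ((π j : ℕ) * k) := by
      intro j
      rw [← pow_mul]; push_cast; ring
    simp only [h5]
    rw [Finset.sum_sub_distrib, h3, h4, sub_self]
  have hv : Function.Injective fun j : Fin n => zt n ^ (π j : ℕ) := by
    intro i j hij
    exact π.injective (Fin.ext (hζ.pow_inj (π i).2 (π j).2 hij))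
  have hdet : (Matrix.vandermonde fun j : Fin n => zt n ^ (π j : ℕ)).det ≠ 0 :=
    Matrix.det_vandermonde_ne_zero_iff.2 hv
  have h0 := Matrix.eq_zero_of_vecMul_eq_zero hdet
    (v := fun j => ((x j - x (π j) : ℚ) : ℂ)) (by
      funext k
      rw [Matrix.vecMul, dotProduct]
      simp only [Matrix.vandermonde_apply, Pi.zero_apply]
      exact key k)
  have h6 := congrFun h0 j
  simp only [Pi.zero_apply, Rat.cast_eq_zero] at h6
  linarith

/-- Vectors invariant under all multiplications by units. -/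
def Inv (n : ℕ) : Submodule ℚ (Fin n → ℚ) where
  carrier := {x | ∀ t : ℕ, t.Coprime n → ∀ i j : Fin n, (j : ℕ) = t * i % n → x j = x i}
  add_mem' := by
    intro x y hx hy t ht i j hij
    simp only [Pi.add_apply]
    rw [hx t ht i j hij, hy t ht i j hij]
  zero_mem' := fun _ _ _ _ _ => rfl
  smul_mem' := by
    intro c x hx t ht i j hij
    simp only [Pi.smul_apply]
    rw [hx t ht i j hij]

theorem finrank_Inv (hn : 0 < n) : finrank ℚ (Inv n) ≤ n.divisors.card := by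
  have : NeZero n := ⟨hn.ne'⟩
  let R : Inv n →ₗ[ℚ] (n.divisors → ℚ) :=
    (LinearMap.funLeft ℚ ℚ (fun d : n.divisors => (⟨d.1 % n, Nat.mod_lt _ hn⟩ : Fin n))).comp
      (Inv n).subtype
  have hinj : Function.Injective R := by
    rw [injective_iff_map_eq_zero]
    rintro ⟨x, hx⟩ hR
    apply Subtype.ext
    funext j
    simp only [ZeroMemClass.coe_zero, Pi.zero_apply]
    obtain ⟨d, hd, u, hu, hju⟩ := ZMod.eq_unit_mul_divisor ((j : ℕ) : ZMod n)
    obtain ⟨u', rfl⟩ := hu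
    have hcop : (u' : ZMod n).val.Coprime n := ZMod.val_coe_unit_coprime u'
    have h1 := hx _ hcop ⟨d % n, Nat.mod_lt _ hn⟩ j (by
      have h2 : (((j : ℕ) : ℕ) : ZMod n) = (((u' : ZMod n).val * (d % n) : ℕ) : ZMod n) := by
        rw [hju]
        push_cast
        rw [ZMod.natCast_zmod_val, ZMod.natCast_mod]
      have h3 := (ZMod.natCast_eq_natCast_iff _ _ _).1 h2
      have h4 : (j : ℕ) % n = ((u' : ZMod n).val * (d % n)) % n := h3
      rw [Nat.mod_eq_of_lt j.2] at h4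
      exact h4)
    rw [h1]
    exact congrFun hR ⟨d, Nat.mem_divisors.2 ⟨hd, hn.ne'⟩⟩
  have h := LinearMap.finrank_le_finrank_of_injective hinj
  refine h.trans ?_
  rw [Module.finrank_fintype_fun_eq_card, Fintype.card_coe]

end Vale.Agent.P344.H664
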