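import Mathlib

/-!
# Chains of stable subspaces of an operator of finite order over `ℚ`
-/

namespace Vale.Agent.P344.H664

open Polynomial Module

variable {V : Type} [AddCommGroup V] [Module ℚ V]

/-- `M` is stable under `Γ`. -/
def Stable (Γ : V →ₗ[ℚ] V) (M : Submodule ℚ V) : Prop := ∀ v ∈ M, Γ v ∈ M

theorem Stable.aeval {Γ : V →ₗ[ℚ] V} {M : Submodule ℚ V} (h : Stable Γ M) (P : ℚ[X]) {v : V}
    (hv : v ∈ M) : aeval Γ P v ∈ M := by
  induction P using Polynomial.induction_on' with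
  | add p q hp hq => rw [map_add, LinearMap.add_apply]; exact M.add_mem hp hq
  | monomial n a =>
    rw [aeval_monomial]
    have key : ∀ n : ℕ, (Γ ^ n) v ∈ M := by
      intro n
      induction n with
      | zero => simpa using hv
      | succ n ih => rw [pow_succ']; exact h _ ih
    have : (algebraMap ℚ (V →ₗ[ℚ] V)) a * Γ ^ n = a • Γ ^ n := by
      rw [Algebra.smul_def]
    rw [this, LinearMap.smul_apply]
    exact M.smul_mem _ (key n)

theorem aeval_mul_apply (Γ : V →ₗ[ℚ] V) (P Q : ℚ[X]) (v : V) :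
    aeval Γ (P * Q) v = aeval Γ P (aeval Γ Q v) := by
  rw [map_mul]; rfl

/-- The part of `M` killed by the `d`-th cyclotomic polynomial in `Γ`. -/
noncomputable def cpart (Γ : V →ₗ[ℚ] V) (d : ℕ) (M : Submodule ℚ V) : Submodule ℚ V :=
  M ⊓ LinearMap.ker (aeval Γ (cyclotomic d ℚ))

theorem mem_cpart {Γ : V →ₗ[ℚ] V} {d : ℕ} {M : Submodule ℚ V} {v : V} :
    v ∈ cpart Γ d M ↔ v ∈ M ∧ aeval Γ (cyclotomic d ℚ) v = 0 := by
  rw [cpart, Submodule.mem_inf, LinearMap.mem_ker]

theorem cpart_mono {Γ : V →ₗ[ℚ] V} {d : ℕ} {M M' : Submodule ℚ V} (h : M ≤ M') :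
    cpart Γ d M ≤ cpart Γ d M' := inf_le_inf_right _ h

theorem jump [FiniteDimensional ℚ V] {Γ : V →ₗ[ℚ] V} {d : ℕ} (hd : 0 < d)
    {M M' : Submodule ℚ V} (hle : M ≤ M') (hM : Stable Γ M) (hM' : Stable Γ M') {v : V}
    (hv : v ∈ cpart Γ d M') (hvM : v ∉ M) :
    finrank ℚ (cpart Γ d M) + d.totient ≤ finrank ℚ (cpart Γ d M') := by
  rw [mem_cpart] at hv
  have hirr := cyclotomic.irreducible_rat hd
  let T : degreeLT ℚ d.totient →ₗ[ℚ] V :=
    ((LinearMap.applyₗ (R := ℚ) v).comp (aeval Γ (R := ℚ)).toLinearMap).comp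
      (degreeLT ℚ d.totient).subtype
  have hT : ∀ P, T P = aeval Γ (P : ℚ[X]) v := fun P => rfl
  have hcop : ∀ P : degreeLT ℚ d.totient, aeval Γ (P : ℚ[X]) v ∈ M → P = 0 := by
    intro P hP
    by_contra hne
    have hP0 : (P : ℚ[X]) ≠ 0 := fun h => hne (Subtype.ext h)
    have hdeg : ((P : ℚ[X])).degree < d.totient := mem_degreeLT.1 P.2
    rcases EuclideanDomain.dvd_or_coprime _ (P : ℚ[X]) hirr with h | h
    swap
    · obtain ⟨a, b, hab⟩ := h
      apply hvM
      have h1 : v = aeval Γ (a * cyclotomic d ℚ + b * (P : ℚ[X])) v := by rw [hab]; simp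
      rw [h1, map_add, LinearMap.add_apply, aeval_mul_apply, aeval_mul_apply, hv.2, map_zero,
        zero_add]
      exact hM.aeval b hP
    · have h2 := Polynomial.degree_le_of_dvd h hP0
      rw [degree_cyclotomic] at h2
      exact absurd (lt_of_le_of_lt h2 hdeg) (lt_irrefl _)
  have hinj : Function.Injective T := by
    rw [injective_iff_map_eq_zero]
    intro P hP
    exact hcop P (by rw [← hT, hP]; exact M.zero_mem)
  have h1 : LinearMap.range T ≤ cpart Γ d M' := by
    rintro _ ⟨P, rfl⟩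
    rw [mem_cpart, hT]
    refine ⟨hM'.aeval _ hv.1, ?_⟩
    rw [← aeval_mul_apply, mul_comm, aeval_mul_apply, hv.2, map_zero]
  have h2 : Disjoint (LinearMap.range T) (cpart Γ d M) := by
    rw [Submodule.disjoint_def]
    rintro _ ⟨P, rfl⟩ hx
    rw [mem_cpart, hT] at hx
    rw [hcop P hx.1, map_zero]
  have h3 : finrank ℚ (LinearMap.range T) = d.totient := by
    rw [LinearMap.finrank_range_of_inj hinj, (degreeLTEquiv ℚ d.totient).finrank_eq]
    simp
  have h4 := Submodule.finrank_sup_add_finrank_inf_eq (LinearMap.range T) (cpart Γ d M)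
  rw [h2.eq_bot, finrank_bot, h3, add_zero] at h4
  have h5 : finrank ℚ ↥(LinearMap.range T ⊔ cpart Γ d M) ≤ finrank ℚ (cpart Γ d M') :=
    Submodule.finrank_mono (sup_le h1 (cpart_mono hle))
  omega

/-- A count of the cyclotomic constituents of a stable subspace. -/
noncomputable def kappa (Γ : V →ₗ[ℚ] V) (lam : ℕ) (M : Submodule ℚ V) : ℕ :=
  ∑ d ∈ lam.divisors, finrank ℚ (cpart Γ d M) / d.totient

theorem kappa_mono [FiniteDimensional ℚ V] (Γ : V →ₗ[ℚ] V) (lam : ℕ) {M M' : Submodule ℚ V}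
    (h : M ≤ M') : kappa Γ lam M ≤ kappa Γ lam M' :=
  Finset.sum_le_sum fun _ _ => Nat.div_le_div_right (Submodule.finrank_mono (cpart_mono h))

theorem mem_of_parts {Γ : V →ₗ[ℚ] V} {M M' : Submodule ℚ V} (hM' : Stable Γ M') (D : Finset ℕ) (h : ∀ d ∈ D, cpart Γ d M' ≤ M) :
    ∀ v ∈ M', aeval Γ (∏ d ∈ D, cyclotomic d ℚ) v = 0 → v ∈ M := by
  classical
  induction D using Finset.induction_on with
  | empty =>
    intro v _ hv
    rw [Finset.prod_empty, map_one] at hv
    have : v = 0 := hv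
    rw [this]; exact M.zero_mem
  | insert d D hd ih =>
    intro v hv hz
    rw [Finset.prod_insert hd] at hz
    have hcop : IsCoprime (cyclotomic d ℚ) (∏ e ∈ D, cyclotomic e ℚ) := by
      refine IsCoprime.prod_right fun e he => cyclotomic.isCoprime_rat ?_
      rintro rfl; exact hd he
    obtain ⟨a, b, hab⟩ := hcop
    have h1 : v = aeval Γ (a * cyclotomic d ℚ) v +
        aeval Γ (b * ∏ e ∈ D, cyclotomic e ℚ) v := by
      rw [← LinearMap.add_apply, ← map_add, hab]; simp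
    rw [h1]
    refine M.add_mem ?_ ?_
    · refine ih (fun e he => h e (Finset.mem_insert_of_mem he)) _ (hM'.aeval _ hv) ?_
      rw [← aeval_mul_apply]
      have : (∏ e ∈ D, cyclotomic e ℚ) * (a * cyclotomic d ℚ) =
          a * (cyclotomic d ℚ * ∏ e ∈ D, cyclotomic e ℚ) := by ring
      rw [this, aeval_mul_apply, hz, map_zero]
    · refine h d (Finset.mem_insert_self _ _) (mem_cpart.2 ⟨hM'.aeval _ hv, ?_⟩)
      rw [← aeval_mul_apply]
      have : cyclotomic d ℚ * (b * ∏ e ∈ D, cyclotomic e ℚ) =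
          b * (cyclotomic d ℚ * ∏ e ∈ D, cyclotomic e ℚ) := by ring
      rw [this, aeval_mul_apply, hz, map_zero]

theorem kappa_strict [FiniteDimensional ℚ V] {Γ : V →ₗ[ℚ] V} {lam : ℕ} (hlam : 0 < lam)
    (hΓ : ∀ v, (Γ ^ lam) v = v) {M M' : Submodule ℚ V} (hle : M ≤ M') (hM : Stable Γ M)
    (hM' : Stable Γ M') (hne : M ≠ M') : kappa Γ lam M + 1 ≤ kappa Γ lam M' := by
  classical
  have hex : ∃ d ∈ lam.divisors, ∃ v ∈ cpart Γ d M', v ∉ M := by
    by_contra hcon
    push Not at hcon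
    apply hne
    refine le_antisymm hle fun v hv => ?_
    refine mem_of_parts hM' lam.divisors (fun d hd v hv => hcon d hd v hv) v hv ?_
    rw [prod_cyclotomic_eq_X_pow_sub_one hlam]
    simp [hΓ]
  obtain ⟨d, hd, v, hv, hvM⟩ := hex
  have hd0 : 0 < d := Nat.pos_of_mem_divisors hd
  have hj := jump hd0 hle hM hM' hv hvM
  unfold kappa
  rw [← Finset.add_sum_erase _ _ hd, ← Finset.add_sum_erase lam.divisors
    (fun d => finrank ℚ (cpart Γ d M') / d.totient) hd]
  have h1 : finrank ℚ (cpart Γ d M) / d.totient + 1 ≤ finrank ℚ (cpart Γ d M') / d.totient := by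
    have h2 : 0 < d.totient := Nat.totient_pos.2 hd0
    rw [← Nat.add_div_right _ h2]
    exact Nat.div_le_div_right hj
  have h3 : ∑ x ∈ lam.divisors.erase d, finrank ℚ (cpart Γ x M) / x.totient ≤
      ∑ x ∈ lam.divisors.erase d, finrank ℚ (cpart Γ x M') / x.totient :=
    Finset.sum_le_sum fun _ _ => Nat.div_le_div_right (Submodule.finrank_mono (cpart_mono hle))
  omega

end Vale.Agent.P344.H664
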