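import Vale.Agent.P344.H664.Kappa

/-!
# The count of constituents for a permutation
-/

namespace Vale.Agent.P344.H664

open Polynomial Module

variable {X : Type} [Fintype X] [DecidableEq X]

/-- The operator `f ↦ f ∘ π`. -/
def permOp (π : Equiv.Perm X) : (X → ℚ) →ₗ[ℚ] (X → ℚ) := LinearMap.funLeft ℚ ℚ π

omit [Fintype X] [DecidableEq X] in
theorem permOp_apply (π : Equiv.Perm X) (f : X → ℚ) (x : X) : permOp π f x = f (π x) := rfl

omit [Fintype X] [DecidableEq X] in
theorem permOp_pow (π : Equiv.Perm X) (i : ℕ) (f : X → ℚ) (x : X) :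
    (permOp π ^ i) f x = f ((π ^ i) x) := by
  induction i generalizing f x with
  | zero => rfl
  | succ i ih =>
    rw [pow_succ, pow_succ']
    change (permOp π ^ i) (permOp π f) x = _
    rw [ih, permOp_apply]
    rfl

omit [Fintype X] [DecidableEq X] in
theorem aeval_permOp (π : Equiv.Perm X) (P : ℚ[X]) (f : X → ℚ) (x : X) :
    aeval (permOp π) P f x = ∑ i ∈ Finset.range (P.natDegree + 1), P.coeff i * f ((π ^ i) x) := by
  rw [aeval_eq_sum_range, LinearMap.sum_apply, Finset.sum_apply]
  refine Finset.sum_congr rfl fun i _ => ?_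
  rw [LinearMap.smul_apply, Pi.smul_apply, permOp_pow, smul_eq_mul]

/-- The shift of sequences. -/
def shift : (ℕ → ℚ) →ₗ[ℚ] (ℕ → ℚ) := LinearMap.funLeft ℚ ℚ fun l => l + 1

theorem shift_pow (i : ℕ) (g : ℕ → ℚ) (l : ℕ) : (shift ^ i) g l = g (l + i) := by
  induction i generalizing g l with
  | zero => rfl
  | succ i ih =>
    rw [pow_succ]
    change (shift ^ i) (shift g) l = _
    rw [ih]
    rfl

theorem aeval_shift (P : ℚ[X]) (g : ℕ → ℚ) (l : ℕ) :
    aeval shift P g l = ∑ i ∈ Finset.range (P.natDegree + 1), P.coeff i * g (l + i) := by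
  rw [aeval_eq_sum_range, LinearMap.sum_apply, Finset.sum_apply]
  refine Finset.sum_congr rfl fun i _ => ?_
  rw [LinearMap.smul_apply, Pi.smul_apply, shift_pow, smul_eq_mul]

omit [Fintype X] [DecidableEq X] in
theorem aeval_seq (π : Equiv.Perm X) (P : ℚ[X]) (f : X → ℚ) (x : X)
    (h : aeval (permOp π) P f = 0) : aeval shift P (fun l => f ((π ^ l) x)) = 0 := by
  funext l
  rw [aeval_shift]
  have h1 := congrFun h ((π ^ l) x)
  rw [aeval_permOp] at h1
  simp only [Pi.zero_apply] at h1 ⊢
  rw [← h1]
  refine Finset.sum_congr rfl fun i _ => ?_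
  rw [← Equiv.Perm.mul_apply, ← pow_add, add_comm i l]

theorem seq_zero_of_init {P : ℚ[X]} (hP : P.Monic) (g : ℕ → ℚ) (h : aeval shift P g = 0)
    (h0 : ∀ l < P.natDegree, g l = 0) : ∀ l, g l = 0 := by
  intro l
  induction l using Nat.strong_induction_on with
  | _ l ih =>
    by_cases hl : l < P.natDegree
    · exact h0 l hl
    · have h1 := congrFun h (l - P.natDegree)
      rw [aeval_shift, Finset.sum_range_succ, hP.coeff_natDegree, one_mul,
        Nat.sub_add_cancel (not_lt.1 hl)] at h1
      rw [Finset.sum_eq_zero, zero_add] at h1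
      · exact h1
      · intro i hi
        rw [Finset.mem_range] at hi
        rw [ih _ (by omega), mul_zero]

theorem seq_zero_of_coprime {P Q : ℚ[X]} (hPQ : IsCoprime P Q) (g : ℕ → ℚ)
    (h : aeval shift P g = 0) (h' : aeval shift Q g = 0) : g = 0 := by
  obtain ⟨a, b, hab⟩ := hPQ
  have h1 : g = aeval shift (a * P + b * Q) g := by rw [hab]; simp
  rw [h1, map_add, LinearMap.add_apply, aeval_mul_apply, aeval_mul_apply, h, h', map_zero,
    map_zero, add_zero]

theorem coprime_of_not_dvd {d L : ℕ} (hL : 0 < L) (hd : ¬ d ∣ L) :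
    IsCoprime (cyclotomic d ℚ) (Polynomial.X ^ L - 1 : ℚ[X]) := by
  rw [← prod_cyclotomic_eq_X_pow_sub_one hL]
  refine IsCoprime.prod_right fun e he => cyclotomic.isCoprime_rat ?_
  rintro rfl
  exact hd (Nat.dvd_of_mem_divisors he)

/-- The orbits (cycles) of a permutation. -/
abbrev Orb (π : Equiv.Perm X) : Type := Quotient (Equiv.Perm.SameCycle.setoid π)

noncomputable instance (π : Equiv.Perm X) : Fintype (Orb π) := Fintype.ofFinite _

/-- The length of an orbit. -/
noncomputable def len (π : Equiv.Perm X) (O : Orb π) : ℕ := Function.minimalPeriod π O.out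

theorem finrank_ker_le (π : Equiv.Perm X) (d : ℕ) :
    finrank ℚ (cpart (permOp π) d ⊤) ≤
      (Finset.univ.filter fun O : Orb π => d ∣ len π O).card * d.totient := by
  classical
  let R : cpart (permOp π) d ⊤ →ₗ[ℚ] ({O : Orb π // d ∣ len π O} × Fin d.totient → ℚ) :=
    (LinearMap.funLeft ℚ ℚ (fun q => (π ^ (q.2 : ℕ)) q.1.1.out)).comp
      (cpart (permOp π) d ⊤).subtype
  have hinj : Function.Injective R := by
    rw [injective_iff_map_eq_zero]
    rintro ⟨f, hf⟩ hR
    rw [mem_cpart] at hf
    apply Subtype.ext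
    funext x
    simp only [ZeroMemClass.coe_zero, Pi.zero_apply]
    set O : Orb π := Quotient.mk _ x with hO
    have hsame : π.SameCycle O.out x := Quotient.exact (Quotient.out_eq O)
    obtain ⟨l, hl⟩ : ∃ l : ℕ, (π ^ l) O.out = x := by
      obtain ⟨l, _, hl⟩ := hsame.exists_pow_eq'
      exact ⟨l, hl⟩
    rw [← hl]
    have hseq := aeval_seq π _ f O.out hf.2
    by_cases hd : d ∣ len π O
    · have h1 := seq_zero_of_init (cyclotomic.monic d ℚ) _ hseq (by
        intro i hi
        rw [natDegree_cyclotomic] at hi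
        exact congrFun hR (⟨O, hd⟩, ⟨i, hi⟩))
      exact h1 l
    · have hpos : 0 < len π O := by
        apply Function.minimalPeriod_pos_of_mem_periodicPts
        exact (π.injective.mem_periodicPts _)
      have h2 : aeval shift (Polynomial.X ^ len π O - 1 : ℚ[X])
          (fun l => f ((π ^ l) O.out)) = 0 := by
        funext j
        rw [map_sub, map_one, map_pow, aeval_X, LinearMap.sub_apply, Pi.sub_apply, shift_pow]
        have h3 : (π ^ len π O) O.out = O.out := by
          have := Function.iterate_minimalPeriod (f := π) (x := O.out)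
          rw [← Equiv.Perm.iterate_eq_pow] 
          exact this
        rw [pow_add, Equiv.Perm.mul_apply, h3]
        simp
      exact congrFun (seq_zero_of_coprime (coprime_of_not_dvd hpos hd) _ hseq h2) l
  have h := LinearMap.finrank_le_finrank_of_injective hinj
  refine h.trans ?_
  rw [Module.finrank_fintype_fun_eq_card, Fintype.card_prod, Fintype.card_fin,
    Fintype.card_subtype]

theorem kappa_le (π : Equiv.Perm X) (lam : ℕ) :
    kappa (permOp π) lam ⊤ ≤ ∑ O : Orb π, (len π O).divisors.card := by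
  classical
  have h1 : kappa (permOp π) lam ⊤ ≤
      ∑ d ∈ lam.divisors, (Finset.univ.filter fun O : Orb π => d ∣ len π O).card := by
    refine Finset.sum_le_sum fun d hd => ?_
    have h2 : 0 < d.totient := Nat.totient_pos.2 (Nat.pos_of_mem_divisors hd)
    rw [Nat.div_le_iff_le_mul_add_pred h2]
    have := finrank_ker_le π d
    rw [mul_comm] at this
    omega
  refine h1.trans ?_
  simp_rw [Finset.card_filter]
  rw [Finset.sum_comm]
  refine Finset.sum_le_sum fun O _ => ?_
  rw [← Finset.card_filter]
  have hpos : 0 < len π O := by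
    apply Function.minimalPeriod_pos_of_mem_periodicPts
    exact (π.injective.mem_periodicPts _)
  refine Finset.card_le_card fun d hd => ?_
  rw [Finset.mem_filter] at hd
  exact Nat.mem_divisors.2 ⟨hd.2, hpos.ne'⟩

end Vale.Agent.P344.H664
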