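import Vale.Agent.P344.H664.Gal
import Vale.Agent.P344.H664.Orbits

/-!
# Scalar multiplications needed for the discrete Fourier transform
-/

namespace Vale.Agent.P344.H664

open Polynomial Module

variable {n : ℕ}

/-- Rational combinations of the outputs. -/
noncomputable def outs (n : ℕ) : (Fin n → ℚ) →ₗ[ℚ] (Fin n → ℂ) where
  toFun u := ∑ k, u k • dftMat n k
  map_add' u v := by simp only [Pi.add_apply, add_smul, Finset.sum_add_distrib]
  map_smul' c u := by
    simp only [Pi.smul_apply, smul_eq_mul, mul_smul, Finset.smul_sum, RingHom.id_apply]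

theorem pr_outs (x u : Fin n → ℚ) :
    pr x (outs n u) = ∑ k, (u k : ℂ) * pr x (dftMat n k) := by
  have h : pr x (outs n u) = pr x (∑ k, u k • dftMat n k) := rfl
  rw [h]
  have key : ∀ s : Finset (Fin n), pr x (∑ k ∈ s, u k • dftMat n k) =
      ∑ k ∈ s, (u k : ℂ) * pr x (dftMat n k) := by
    classical
    intro s
    induction s using Finset.induction_on with
    | empty => simp [pr_zero_right]
    | insert a s ha ih =>
      rw [Finset.sum_insert ha, Finset.sum_insert ha, pr_add_right, pr_qsmul_right, ih]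
  exact key _

theorem pr_outs' (x u : Fin n → ℚ) :
    pr x (outs n u) = ∑ p : Fin n × Fin n, ((u p.1 * x p.2 : ℚ) : ℂ) *
      zt n ^ ((p.1 : ℕ) * (p.2 : ℕ)) := by
  rw [pr_outs, Fintype.sum_prod_type]
  refine Finset.sum_congr rfl fun k _ => ?_
  rw [pr, Finset.mul_sum]
  refine Finset.sum_congr rfl fun j _ => ?_
  rw [dftMat_eq]
  push_cast
  ring

/-- The combinations of the outputs that are rational on `W`. -/
noncomputable def Ann (W : Submodule ℚ (Fin n → ℚ)) : Submodule ℚ (Fin n → ℚ) :=
  (RatOn W).comap (outs n)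

theorem Ann_anti {W W' : Submodule ℚ (Fin n → ℚ)} (h : W' ≤ W) : Ann W ≤ Ann W' :=
  Submodule.comap_mono (RatOn_anti h)

/-- `Ann W` is stable under multiplications by units. -/
theorem Ann_stable (hn : 0 < n) (W : Submodule ℚ (Fin n → ℚ)) {t : ℕ} (ht : t.Coprime n)
    {π : Equiv.Perm (Fin n)} (hπ : IsMul t π) : Stable (permOp π) (Ann W) := by
  intro u hu x hx
  -- the inverse multiplication
  obtain ⟨s, hs⟩ : ∃ s, t * s ≡ 1 [MOD n] := by
    have : NeZero n := ⟨hn.ne'⟩
    refine ⟨((ZMod.unitOfCoprime t ht)⁻¹ : (ZMod n)ˣ).1.val, ?_⟩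
    rw [← ZMod.natCast_eq_natCast_iff]
    push_cast
    rw [ZMod.natCast_zmod_val, ← ZMod.coe_unitOfCoprime t ht, Units.mul_inv]
  have hsc : s.Coprime n := by
    have h1 : (t * s).Coprime n := by
      rw [Nat.Coprime, hs.gcd_eq]; simp
    exact Nat.Coprime.coprime_mul_left h1
  obtain ⟨q, hq⟩ := hu x hx
  rw [pr_outs'] at hq
  have h1 := conj_sum hn (zt_prim hn) hsc Finset.univ
    (fun p : Fin n × Fin n => u p.1 * x p.2) (fun p => (p.1 : ℕ) * (p.2 : ℕ)) q hq
  refine ⟨q, ?_⟩
  rw [pr_outs', ← h1]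
  rw [← Equiv.sum_comp (Equiv.prodCongr π (Equiv.refl (Fin n)))
    (fun p : Fin n × Fin n => ((u p.1 * x p.2 : ℚ) : ℂ) * zt n ^ (s * ((p.1 : ℕ) * (p.2 : ℕ))))]
  refine Finset.sum_congr rfl fun p _ => ?_
  have h2 : zt n ^ (s * ((π p.1 : ℕ) * (p.2 : ℕ))) = zt n ^ ((p.1 : ℕ) * (p.2 : ℕ)) := by
    rw [mul_comm s, pow_mul, pow_isMul hn hπ, ← pow_mul]
    have h3 : t * ((p.1 : ℕ) * p.2) * s = (t * s) * ((p.1 : ℕ) * p.2) := by ring
    rw [h3, pow_mul]
    have h4 : zt n ^ (t * s) = zt n := by
      have h5 : zt n ^ (t * s) = zt n ^ ((t * s) % n) := by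
        conv_lhs => rw [← Nat.div_add_mod (t * s) n]
        rw [pow_add, pow_mul, (zt_prim hn).pow_eq_one, one_pow, one_mul]
      have h6 : zt n ^ 1 = zt n ^ (1 % n) := by
        conv_lhs => rw [← Nat.div_add_mod 1 n]
        rw [pow_add, pow_mul, (zt_prim hn).pow_eq_one, one_pow, one_mul]
      rw [h5, show (t * s) % n = 1 % n from hs, ← h6, pow_one]
    rw [h4]
  simp only [Equiv.prodCongr_apply, Prod.map_fst, Prod.map_snd, Equiv.refl_apply]
  rw [h2, permOp_apply]

/-- **Scalar multiplications**, potential form. -/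
theorem potential (hn : 0 < n) {m : ℕ} {c : ℕ → Fin n → ℂ} {r : ℕ → Fin n → ℚ}
    (hc : ∀ i < m, ∃ μ : ℂ, ∃ b ∈ spn c i, c i = μ • (rv (r i) + b))
    (hout : ∀ k, ∃ q : Fin n → ℚ, ∃ b ∈ spn c m, dftMat n k = rv q + b)
    {t : ℕ} (ht : t.Coprime n) {π : Equiv.Perm (Fin n)} (hπ : IsMul t π) {lam : ℕ}
    (hlam : 0 < lam) (hpow : π ^ lam = 1) :
    ∀ (N : ℕ) (W : Submodule ℚ (Fin n → ℚ)), finrank ℚ W = N →
      N + n + kappa (permOp π) lam (Ann W) + finrank ℚ ↥(spn c m ⊓ RatOn W) ≤
        m + kappa (permOp π) lam ⊤ + n.divisors.card + finrank ℚ (Ann W) := by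
  classical
  have hfin : FiniteDimensional ℚ (spn c m) := by
    refine FiniteDimensional.span_of_finite ℚ ?_
    exact (Set.finite_lt_nat m).image c
  have hspn : finrank ℚ (spn c m) ≤ m := by
    have h1 : spn c m = Submodule.span ℚ ((Finset.range m).image c : Set (Fin n → ℂ)) := by
      unfold spn
      congr 1
      ext x
      simp
    rw [h1]
    refine (finrank_span_finset_le_card _).trans (Finset.card_image_le.trans ?_)
    simp
  choose q b hb hqb using hout
  -- the non-rational part of the outputs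
  let β : (Fin n → ℚ) →ₗ[ℚ] (Fin n → ℂ) :=
    { toFun := fun u => ∑ k, u k • b k
      map_add' := fun u v => by simp only [Pi.add_apply, add_smul, Finset.sum_add_distrib]
      map_smul' := fun c u => by
        simp only [Pi.smul_apply, smul_eq_mul, mul_smul, Finset.smul_sum, RingHom.id_apply] }
  have hβ : ∀ u, β u = ∑ k, u k • b k := fun _ => rfl
  have hβmem : ∀ u, β u ∈ spn c m := by
    intro u
    rw [hβ]
    exact Submodule.sum_mem _ fun k _ => Submodule.smul_mem _ _ (hb k)
  have hAnn : ∀ W : Submodule ℚ (Fin n → ℚ), Ann W = (spn c m ⊓ RatOn W).comap β := by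
    intro W
    ext u
    rw [Submodule.mem_comap, Submodule.mem_inf]
    have h1 : outs n u = rv (∑ k, u k • q k) + β u := by
      have h2 : outs n u = ∑ k, u k • dftMat n k := rfl
      rw [h2, hβ]
      funext j
      simp only [Finset.sum_apply, Pi.smul_apply, Pi.add_apply, rv]
      rw [Rat.cast_sum, ← Finset.sum_add_distrib]
      refine Finset.sum_congr rfl fun k _ => ?_
      rw [hqb k]
      simp only [Pi.add_apply, rv, smul_add, Rat.smul_def, smul_eq_mul, Rat.cast_mul]
    constructor
    · intro hu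
      refine ⟨hβmem u, ?_⟩
      have h3 : β u = outs n u - rv (∑ k, u k • q k) := by rw [h1]; abel
      rw [h3]
      exact Submodule.sub_mem _ hu (rv_mem W _)
    · rintro ⟨_, hu⟩
      change outs n u ∈ RatOn W
      rw [h1]
      exact Submodule.add_mem _ (rv_mem W _) hu
  have hfin' : ∀ W : Submodule ℚ (Fin n → ℚ),
      FiniteDimensional ℚ ↥(spn c m ⊓ RatOn W) := fun W =>
    Submodule.finiteDimensional_of_le inf_le_left
  have hperm : ∀ v, (permOp π ^ lam) v = v := by
    intro v; funext x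
    rw [permOp_pow, hpow]; rfl
  intro N
  induction N using Nat.strong_induction_on with
  | _ N ih =>
    intro W hW
    by_cases hcase : spn c m ≤ RatOn W
    · -- all outputs are rational on `W`
      have h1 : W ≤ Inv n := by
        intro x hx t' ht' i j hij
        obtain ⟨π', hπ'⟩ := exists_isMul hn ht'
        have h2 := invariant_of_rational hn x (fun k => by
          obtain ⟨q', hq'⟩ := (Submodule.add_mem _ (rv_mem W (q k)) (hcase (hb k))) x hx
          exact ⟨q', by rw [hqb k]; exact hq'⟩) ht' hπ' i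
        have h3 : π' i = j := Fin.ext (by rw [hπ' i, hij])
        rw [← h3, h2]
      have h2 : finrank ℚ W ≤ n.divisors.card := (Submodule.finrank_mono h1).trans (finrank_Inv hn)
      have h3 : Ann W = ⊤ := by
        rw [hAnn W, eq_top_iff]
        intro u _
        exact ⟨hβmem u, hcase (hβmem u)⟩
      have h4 : finrank ℚ ↥(spn c m ⊓ RatOn W) ≤ m :=
        (Submodule.finrank_mono inf_le_left).trans hspn
      have h5 : finrank ℚ (Ann W) = n := by rw [h3, finrank_top]; simp
      rw [h5, h3]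
      omega
    · obtain ⟨W', hle, hlt, hge, w, hw, hw', hw''⟩ := kill hc W hcase
      have ih' := ih (finrank ℚ W') (by omega) W' rfl
      have hsub : spn c m ⊓ RatOn W ≤ spn c m ⊓ RatOn W' :=
        inf_le_inf_left _ (RatOn_anti hle)
      have hlt' : finrank ℚ ↥(spn c m ⊓ RatOn W) < finrank ℚ ↥(spn c m ⊓ RatOn W') := by
        refine Submodule.finrank_lt_finrank_of_lt (lt_of_le_of_ne hsub ?_)
        intro heq
        have : w ∈ spn c m ⊓ RatOn W := by rw [heq]; exact ⟨hw, hw'⟩
        exact hw'' this.2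
      by_cases hA : Ann W = Ann W'
      · rw [hA]
        omega
      · have h1 := finrank_comap_le β _ _ hsub
        rw [← hAnn, ← hAnn] at h1
        have h2 := kappa_strict hlam hperm (Ann_anti hle) (Ann_stable hn W ht hπ)
          (Ann_stable hn W' ht hπ) hA
        omega

/-- **Scalar multiplications**: lower bound in terms of the orbits of a multiplication. -/
theorem smul_bound (hn : 0 < n) {a m : ℕ} (h : ComputesDFT n a m) {t : ℕ} (ht : t.Coprime n)
    {π : Equiv.Perm (Fin n)} (hπ : IsMul t π) :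
    2 * n ≤ m + n.divisors.card + ∑ O : Orb π, (len π O).divisors.card := by
  classical
  obtain ⟨V, hV, hrow⟩ := h
  obtain ⟨c, r, hc, hval⟩ := circ_struct hV
  have hlam : 0 < orderOf π := orderOf_pos π
  have hpot := potential hn hc (fun k => hval _ (hrow k)) ht hπ hlam (pow_orderOf_eq_one π) n ⊤
    (by rw [finrank_top]; simp)
  have h1 := kappa_le π (orderOf π)
  have h2 : finrank ℚ (Ann (⊤ : Submodule ℚ (Fin n → ℚ))) ≤
      kappa (permOp π) (orderOf π) (Ann ⊤) := by
    have h3 : cpart (permOp π) 1 (Ann ⊤) = Ann ⊤ := by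
      refine le_antisymm inf_le_left fun u hu => ?_
      rw [mem_cpart]
      refine ⟨hu, ?_⟩
      rw [cyclotomic_one, map_sub, aeval_X, map_one, LinearMap.sub_apply, sub_eq_zero]
      funext j
      rw [permOp_apply, Module.End.one_apply]
      refine invariant_of_rational hn u (fun k => ?_) ht hπ j
      obtain ⟨q, hq⟩ := hu (Pi.single k 1) Submodule.mem_top
      refine ⟨q, ?_⟩
      rw [← hq, pr_outs, pr]
      refine Finset.sum_congr rfl fun i _ => ?_
      congr 1
      rw [pr, Finset.sum_eq_single k]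
      · simp [dftMat, mul_comm]
      · intro b _ hb; simp [hb]
      · simp
    have h4 : finrank ℚ (cpart (permOp π) 1 (Ann ⊤)) / Nat.totient 1 ≤
        kappa (permOp π) (orderOf π) (Ann ⊤) :=
      Finset.single_le_sum (f := fun d => finrank ℚ (cpart (permOp π) d (Ann ⊤)) / d.totient)
        (fun _ _ => Nat.zero_le _) (Nat.one_mem_divisors.2 hlam.ne')
    rw [h3, Nat.totient_one, Nat.div_one] at h4
    exact h4
  omega

end Vale.Agent.P344.H664
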